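import Vale.Agent.P329.H550.Tab
import Vale.Agent.P329.H62.Rev

/-!
P329: all automata which act by affine maps of `F_2^2`.
-/

set_option linter.all false

namespace Vale.Agent.P329.H550

open Vale.Agent.P329 Vale.Agent.P329.S4

/-- the linear map as a homomorphism -/
def apH (p : V × V) : V →+ V where
  toFun := ap p
  map_zero' := by ext <;> simp [ap]
  map_add' v w := by ext <;> simp [ap] <;> ring

theorem ap_add (p : V × V) (v w : V) : ap p (v + w) = ap p v + ap p w := (apH p).map_add v w

theorem ap_zero (p : V × V) : ap p 0 = 0 := (apH p).map_zero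

theorem ap_id (v : V) : ap idm v = v := by
  ext <;> simp [ap, idm]

/-- the alternating form -/
def wd (x y : V) : ZMod 2 := x.1 * y.2 + x.2 * y.1

theorem wd_id : ∀ y d : V, (if y + d = 0 then 1 else 0 : ZMod 2) + (if y = 0 then 1 else 0) =
    (if d = 0 then 0 else 1) + wd y d := by decide

/-- the alternating form as a homomorphism -/
def wdH (d : V) : V →+ ZMod 2 where
  toFun y := wd y d
  map_zero' := by simp [wd]
  map_add' v w := by simp [wd]; ring

theorem six_zero : ∀ c : ZMod 2, 6 • c = 0 := by decide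

theorem r2_ind (v : V) : r2 (ind 0 v) = if v = 0 then 1 else 0 := by
  by_cases h : v = 0
  · rw [if_pos h, h, ind_self]; rfl
  · rw [if_neg h, ind_ne h]; rfl

/-- the scalar product -/
def pr (u v : V) : ZMod 2 := u.1 * v.1 + u.2 * v.2

/-- the transposed map -/
def tp (p : V × V) : V × V := ((p.1.1, p.2.1), (p.1.2, p.2.2))

theorem pr_ap (p : V × V) (u v : V) : pr u (ap p v) = pr (ap (tp p) u) v := by
  simp only [pr, ap, tp]; ring

theorem pr_add (u v w : V) : pr u (v + w) = pr u v + pr u w := by
  simp only [pr, Prod.fst_add, Prod.snd_add]; ring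

theorem pr_zero (u : V) : pr u 0 = 0 := by simp [pr]

theorem pr_wd (x k : V) : pr x k = wd (k.2, k.1) x := by
  simp only [pr, wd]; ring

theorem Kn.rev {α : Type} {B : Type*} {F : List α → B} (h : Kn F) :
    Kn fun w => F w.reverse := fun b => H62.SH.rev (h b)

section

variable {α : Type} (μ : α → V × V)

/-- the affine automaton -/
def st (κ : α → V) (y : V) (a : α) : V := ap (μ a) y + κ a

theorem st_add (κ κ' : α → V) (w : List α) : ∀ y y' : V,
    w.foldl (st μ fun a => κ a + κ' a) (y + y') = w.foldl (st μ κ) y + w.foldl (st μ κ') y' := by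
  induction w with
  | nil => intro y y'; rfl
  | cons a w ih =>
    intro y y'
    rw [List.foldl_cons, List.foldl_cons, List.foldl_cons, ← ih]
    congr 1
    unfold st
    rw [ap_add]
    exact add_add_add_comm _ _ _ _

theorem st_lin (κ : α → V) (w : List α) (y d : V) :
    w.foldl (st μ κ) (y + d) = w.foldl (st μ κ) y + w.foldl (st μ fun _ => 0) d := by
  rw [← st_add]
  simp only [add_zero]

theorem st_sum (T : Fin 6 → α → V) (w : List α) : ∀ y : Fin 6 → V,
    w.foldl (st μ fun a => ∑ j, T j a) (∑ j, y j) = ∑ j, w.foldl (st μ (T j)) (y j) := by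
  induction w with
  | nil => intro y; rfl
  | cons a w ih =>
    intro y
    have h : st μ (fun a => ∑ j, T j a) (∑ j, y j) a = ∑ j, st μ (T j) (y j) a := by
      unfold st
      rw [Finset.sum_add_distrib]
      congr 1
      exact map_sum (apH (μ a)) y Finset.univ
    rw [List.foldl_cons, h, ih]
    rfl

/-- the six systems -/
def TT (κ : α → V) (j : Fin 6) (a : α) : V := tb (μ a) (κ a) j

theorem TT_sum (κ : α → V) (hκ : ∀ a, μ a = idm → κ a = 0) (a : α) :
    ∑ j, TT μ κ j a = κ a := by
  by_cases h : μ a = idm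
  · rw [hκ a h]
    refine Finset.sum_eq_zero fun j _ => ?_
    unfold TT
    rw [h, tb_id]
  · rw [Fin.sum_univ_six]
    exact tb_sum (κ a) (μ a).1 (μ a).2 h

theorem TT_cl (κ : α → V) (j : Fin 6) : ClS (rk6 j) (st μ (TT μ κ j)) 0 :=
  fun a => tb_cl (κ a) (μ a).1 (μ a).2 j

theorem TT_total (κ : α → V) (hκ : ∀ a, μ a = idm → κ a = 0) (w : List α) (y : V) :
    ∑ j : Fin 6, w.foldl (st μ (TT μ κ j)) (if j = 0 then y else 0) = w.foldl (st μ κ) y := by
  have h3 := st_sum μ (TT μ κ) w (fun j => if j = 0 then y else 0)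
  rw [show (fun a => ∑ j, TT μ κ j a) = κ from funext (TT_sum μ κ hκ),
    Finset.sum_ite_eq' Finset.univ (0 : Fin 6) (fun _ => y), if_pos (Finset.mem_univ _)] at h3
  exact h3.symm

theorem A_known [Finite α] (κ : α → V) (hκ : ∀ a, μ a = idm → κ a = 0) (y : V) :
    Kn fun w : List α => w.foldl (st μ κ) y := by
  have h1 : Kn fun w : List α => fun j : Fin 6 =>
      w.foldl (st μ (TT μ κ j)) (if j = 0 then y else 0) :=
    Kn.pi fun j => fold_cl (TT_cl μ κ j) _
  have h2 := h1.comp fun t => ∑ j, t j
  refine Eq.mp (congrArg Kn ?_) h2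
  funext w
  exact TT_total μ κ hκ w y

theorem B_known [Finite α] {b : α} (hb : μ b = idm) (z g : V) :
    Kn (at_ b fun u => wd z (u.foldl (st μ fun _ => 0) g)) := by
  let κ : α → V := fun a => ap (μ a) z + z
  have hκ : ∀ a, μ a = idm → κ a = 0 := by
    intro a ha
    change ap (μ a) z + z = 0
    rw [ha, ap_id, vv]
  have hz : ∀ u : List α, u.foldl (st μ κ) z = z := by
    intro u
    induction u with
    | nil => rfl
    | cons a u ih =>
      have h : st μ κ z a = z := by
        change ap (μ a) z + (ap (μ a) z + z) = z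
        rw [← add_assoc, vv, zero_add]
      rw [List.foldl_cons, h]
      exact ih
  let gj : Fin 6 → V := fun j => if j = 0 then z else 0
  let N : Fin 6 → V → List α → ℤ := fun j s =>
    at_ b fun u => ind 0 (u.foldl (st μ (TT μ κ j)) s)
  have hN : ∀ j s, KnZ (N j s) := by
    intro j s
    have h0 : ∀ x, st μ (TT μ κ j) x b = x := by
      intro x
      change ap (μ b) x + tb (μ b) (κ b) j = x
      rw [hb, ap_id, tb_id, add_zero]
    refine (visit_cl (TT_cl μ κ j) h0 s).congr fun w => ?_
    rw [W_eq_at]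
  have h1 : Kn fun w => fun j : Fin 6 =>
      (((N j (gj j + g) w : ℤ) : ZMod 2), ((N j (gj j) w : ℤ) : ZMod 2)) :=
    Kn.pi fun j => (hN j _ 2 two_pos).pair (hN j _ 2 two_pos)
  have h2 := h1.comp fun t => ∑ j, ((t j).1 + (t j).2)
  refine Eq.mp (congrArg Kn ?_) h2
  funext w
  change ∑ j, (r2 (N j (gj j + g) w) + r2 (N j (gj j) w)) = _
  have e1 : ∀ j, r2 (N j (gj j + g) w) + r2 (N j (gj j) w) =
      at_ b (fun u => r2 (ind 0 (u.foldl (st μ (TT μ κ j)) (gj j + g))) +
        r2 (ind 0 (u.foldl (st μ (TT μ κ j)) (gj j)))) w := by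
    intro j
    rw [at_hom, at_hom, at_add]
  rw [Finset.sum_congr rfl fun j _ => e1 j, ← at_sum]
  refine at_congr (fun u => ?_) w
  have e2 : ∀ j, r2 (ind 0 (u.foldl (st μ (TT μ κ j)) (gj j + g))) +
      r2 (ind 0 (u.foldl (st μ (TT μ κ j)) (gj j))) =
      (if u.foldl (st μ fun _ => 0) g = 0 then 0 else 1) +
        wdH (u.foldl (st μ fun _ => 0) g) (u.foldl (st μ (TT μ κ j)) (gj j)) := by
    intro j
    rw [st_lin, r2_ind, r2_ind]
    exact wd_id _ _
  rw [Finset.sum_congr rfl fun j _ => e2 j, Finset.sum_add_distrib, Finset.sum_const,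
    Finset.card_univ, Fintype.card_fin, six_zero, zero_add, ← map_sum,
    TT_total μ κ hκ u z, hz u]
  rfl

theorem adj (w : List α) : ∀ u v : V, pr u (w.foldl (st μ fun _ => 0) v) =
    pr (w.reverse.foldl (st (fun a => tp (μ a)) fun _ => 0) u) v := by
  induction w with
  | nil => intro u v; rfl
  | cons a w ih =>
    intro u v
    rw [List.foldl_cons, ih, List.reverse_cons, List.foldl_append, List.foldl_cons,
      List.foldl_nil]
    unfold st
    rw [add_zero, add_zero, pr_ap]

theorem pr_fold (κ : α → V) (u : V) (w : List α) : pr u (w.foldl (st μ κ) 0) =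
    smR (fun p a => pr (p.foldl (st (fun a => tp (μ a)) fun _ => 0) u) (κ a)) w := by
  induction w with
  | nil => exact pr_zero u
  | cons a w ih =>
    have h : st μ κ 0 a = 0 + κ a := by
      unfold st
      rw [ap_zero]
    rw [List.foldl_cons, h, st_lin, pr_add, ih, adj]
    rfl

theorem sm_at [Fintype α] {B : Type} [AddCommMonoid B] (F : List α → α → B) (w : List α) :
    sm F w = ∑ b, at_ b (fun u => F u b) w := by
  classical
  unfold at_
  rw [← sm_sum]
  refine sm_congr (fun u x => ?_) w
  rw [Finset.sum_eq_single x]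
  · rw [if_pos rfl]
  · intro b _ hb
    rw [if_neg (Ne.symm hb)]
  · intro h; exact absurd (Finset.mem_univ _) h

theorem N_known [Finite α] (κ : α → V) (hκ : ∀ a, μ a ≠ idm → κ a = 0) (u : V) :
    Kn fun w : List α => pr u (w.foldl (st μ κ) 0) := by
  classical
  have := Fintype.ofFinite α
  let F : List α → α → ZMod 2 :=
    fun p a => pr (p.foldl (st (fun a => tp (μ a)) fun _ => 0) u) (κ a)
  have h1 : Kn (sm F) := by
    have h2 : Kn fun w => fun b : α => at_ b (fun p => F p b) w := by
      refine Kn.pi fun b => ?_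
      by_cases hb : μ b = idm
      · have hb' : (fun a => tp (μ a)) b = idm := by
          change tp (μ b) = idm
          rw [hb]; rfl
        refine Eq.mp (congrArg Kn ?_)
          (B_known (fun a => tp (μ a)) hb' ((κ b).2, (κ b).1) u)
        funext w
        exact at_congr (fun p => (pr_wd _ _).symm) w
      · have h3 : (at_ b fun p => F p b) = fun _ => 0 := by
          funext w
          rw [← at_zero (B := ZMod 2) b w]
          refine at_congr (fun p => ?_) w
          change pr _ (κ b) = 0
          rw [hκ b hb, pr_zero]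
        rw [h3]
        exact Kn.const 0
    have h3 := h2.comp fun t => ∑ b, t b
    refine Eq.mp (congrArg Kn ?_) h3
    funext w
    exact (sm_at F w).symm
  refine Eq.mp (congrArg Kn ?_) (Kn.rev h1)
  funext w
  rw [pr_fold, sm, List.reverse_reverse]

/-- **All automata acting by affine maps of the plane over the field with two elements.** -/
theorem aff_known [Finite α] (κ : α → V) (y : V) : Kn fun w : List α => w.foldl (st μ κ) y := by
  classical
  let κ1 : α → V := fun a => if μ a = idm then 0 else κ a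
  let κ2 : α → V := fun a => if μ a = idm then κ a else 0
  have hκ : (fun a => κ1 a + κ2 a) = κ := by
    funext a
    change (if μ a = idm then 0 else κ a) + (if μ a = idm then κ a else 0) = κ a
    by_cases h : μ a = idm
    · rw [if_pos h, if_pos h, zero_add]
    · rw [if_neg h, if_neg h, add_zero]
  have h1 := A_known μ κ1 (fun a ha => if_pos ha) y
  have h2 := N_known μ κ2 (fun a ha => if_neg ha) (1, 0)
  have h3 := N_known μ κ2 (fun a ha => if_neg ha) (0, 1)
  have h4 := (h1.pair (h2.pair h3)).comp fun t => t.1 + (t.2.1, t.2.2)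
  refine Eq.mp (congrArg Kn ?_) h4
  funext w
  have h5 := st_add μ κ1 κ2 w y 0
  rw [hκ, add_zero] at h5
  rw [h5]
  congr 1
  ext <;> simp [pr]

end

end Vale.Agent.P329.H550
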