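import Vale.Agent.P329.H550.Three

/-!
P329: all automata with three states.  Every automaton with three states is the sum of seven
automata on `F_2^2` which are monotone off zero.
-/

set_option linter.all false

namespace Vale.Agent.P329.H550

open Vale.Agent.P329 Vale.Agent.P329.H112 Vale.Agent.P329.H157 Vale.Agent.P329.H647
  Vale.Agent.P329.H96

/-- ranks of the nonzero vectors in the seven automata -/
def rk7 : Fin 7 → Fin 3 → ℕ
  | 0 => ![0, 1, 2]
  | 1 => ![0, 2, 1]
  | 2 => ![1, 0, 2]
  | 3 => ![2, 0, 1]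
  | 4 => ![1, 2, 0]
  | 5 => ![2, 1, 0]
  | 6 => ![0, 1, 2]

/-- codes of vectors -/
def tcode : ℕ → Option (Fin 3)
  | 0 => none
  | 1 => some 0
  | 2 => some 1
  | _ => some 2

/-- the translation parts: row `9 g(0) + 3 g(1) + g(2)`, column = number of the automaton -/
def tabl : List (List ℕ) :=
  [[0, 0, 0, 0, 0, 0, 1], [0, 0, 0, 0, 0, 0, 2], [0, 0, 0, 0, 0, 0, 3], [0, 0, 0, 0, 0, 0, 2],
   [0, 0, 0, 0, 0, 0, 1], [0, 0, 0, 0, 0, 0, 0], [0, 0, 0, 0, 1, 0, 2], [1, 1, 3, 1, 2, 1, 1],
   [0, 0, 0, 0, 0, 1, 0], [0, 0, 0, 0, 0, 3, 1], [0, 0, 0, 0, 0, 3, 2], [3, 2, 3, 1, 3, 3, 3],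
   [0, 0, 0, 0, 0, 3, 2], [0, 0, 0, 0, 0, 0, 2], [0, 0, 0, 0, 0, 3, 0], [2, 2, 3, 1, 1, 1, 2],
   [0, 0, 0, 0, 0, 2, 1], [0, 0, 0, 0, 0, 2, 0], [0, 0, 0, 0, 0, 1, 2], [3, 2, 3, 1, 2, 2, 3],
   [0, 0, 0, 0, 1, 0, 0], [2, 2, 2, 2, 2, 1, 3], [0, 0, 0, 0, 0, 2, 1], [0, 0, 0, 0, 0, 2, 0],
   [0, 0, 0, 0, 0, 2, 3], [0, 0, 0, 0, 0, 3, 1], [0, 0, 0, 0, 0, 0, 3]]

/-- the translation part of the automaton `j` for the map `g` of the points -/
def tj (j : Fin 7) (g : Fin 3 → Fin 3) : Option (Fin 3) :=
  tcode ((tabl.getD (9 * (g 0).val + 3 * (g 1).val + (g 2).val) []).getD j.val 0)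

/-- the affine map `x ↦ lam g x + t` is monotone or has at most one value off zero -/
def Good7 (j : Fin 7) (g : Fin 3 → Fin 3) (t : Option (Fin 3)) : Prop :=
  (∀ x y : Fin 3, vadd (lam g (some x)) t = some y → rk7 j y < rk7 j x ∨ y = x) ∨
    ∃ y0 : Fin 3, ∀ x y : Fin 3, vadd (lam g (some x)) t = some y → y = y0

instance (j : Fin 7) (g : Fin 3 → Fin 3) (t : Option (Fin 3)) : Decidable (Good7 j g t) := by
  unfold Good7; infer_instance

theorem good_all : ∀ (j : Fin 7) (a b c : Fin 3), Good7 j ![a, b, c] (tj j ![a, b, c]) := by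
  decide

/-- sums of vectors -/
def vsum (L : List (Option (Fin 3))) : Option (Fin 3) := L.foldr vadd none

theorem sum_all : ∀ (a b c p : Fin 3),
    vadd (lam ![a, b, c] (some p)) (vsum ((List.finRange 7).map fun j => tj j ![a, b, c])) =
      some (![a, b, c] p) := by
  decide

theorem vsum_const : ∀ p : Fin 3, vsum ((List.finRange 7).map fun _ => some p) = some p := by
  decide

theorem vsum_add {ι : Type} (L : List ι) (f g : ι → Option (Fin 3)) :
    vsum (L.map fun j => vadd (f j) (g j)) = vadd (vsum (L.map f)) (vsum (L.map g)) := by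
  induction L with
  | nil => rfl
  | cons i L ih =>
    change vadd (vadd (f i) (g i)) (vsum (L.map fun j => vadd (f j) (g j))) =
      vadd (vadd (f i) (vsum (L.map f))) (vadd (g i) (vsum (L.map g)))
    rw [ih]
    ac_rfl

theorem lam_vadd' (g : Fin 3 → Fin 3) (x y : Option (Fin 3)) :
    lam g (vadd x y) = vadd (lam g x) (lam g y) := by
  have h := vadd_lam (g 0) (g 1) (g 2) x y
  have e : ![g 0, g 1, g 2] = g := by
    funext p
    fin_cases p <;> rfl
  rwa [e] at h

theorem vsum_lam {ι : Type} (L : List ι) (g : Fin 3 → Fin 3) (f : ι → Option (Fin 3)) :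
    vsum (L.map fun j => lam g (f j)) = lam g (vsum (L.map f)) := by
  induction L with
  | nil => rfl
  | cons i L ih =>
    change vadd (lam g (f i)) (vsum (L.map fun j => lam g (f j))) =
      lam g (vadd (f i) (vsum (L.map f)))
    rw [ih, lam_vadd']

/-- **All automata with three states.** -/
theorem all_sh {α : Type} [Finite α] (δ : Fin 3 → α → Fin 3) (p q : Fin 3) :
    SH 1 {w : List α | w.foldl δ p = q} := by
  let T : Fin 7 → Option (Fin 3) → α → Option (Fin 3) :=
    fun j x a => vadd (lam (col δ a) x) (tj j (col δ a))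
  have s : ∀ j x y, SH 1 {w : List α | w.foldl (T j) x = y} :=
    fun j x y => mono_sh (ρ := rk7 j) (δ := T j) (fun a => good_all j _ _ _) x y
  have key : ∀ (w : List α) (x : Fin 7 → Option (Fin 3)) (p : Fin 3),
      vsum ((List.finRange 7).map x) = some p →
      vsum ((List.finRange 7).map fun j => w.foldl (T j) (x j)) = some (w.foldl δ p) := by
    intro w
    induction w with
    | nil => intro x p h; exact h
    | cons a w ih =>
      intro x p h
      simp only [List.foldl_cons]
      refine ih (fun j => T j (x j) a) (δ p a) ?_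
      change vsum ((List.finRange 7).map fun j =>
        vadd (lam (col δ a) (x j)) (tj j (col δ a))) = some (δ p a)
      rw [vsum_add, vsum_lam (List.finRange 7) (col δ a) x, h]
      have e2 := sum_all (δ 0 a) (δ 1 a) (δ 2 a) p
      rw [← col_apply δ a p]
      exact e2
  have hU : SH 1 (⋃ z : Fin 7 → Option (Fin 3),
      ⋃ _ : vsum ((List.finRange 7).map z) = some q,
        ⋂ j : Fin 7, {w : List α | w.foldl (T j) (some p) = z j}) :=
    SH.iUnion fun z => SH.iUnion_prop fun _ => SH.iInter fun j => s j _ _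
  refine Eq.mp (congrArg (SH 1) ?_) hU
  ext w
  simp only [Set.mem_iUnion, exists_prop, Set.mem_iInter, Set.mem_setOf_eq]
  have hk := key w (fun _ => some p) p (vsum_const p)
  constructor
  · rintro ⟨z, h, e⟩
    have e' : (fun j => w.foldl (T j) (some p)) = z := funext e
    rw [e', h, Option.some.injEq] at hk
    exact hk.symm
  · intro h
    rw [h] at hk
    exact ⟨_, hk, fun j => rfl⟩

/-- **Automata with `n + 3` states have height at most `n + 1`.** -/
theorem states_sh {α : Type} [Finite α] (n : ℕ) :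
    ∀ (X : Type) [Finite X], Nat.card X = n + 3 → ∀ (δ : X → α → X) (p q : X),
      SH (n + 1) {w : List α | w.foldl δ p = q} := by
  have conj : ∀ {X Y : Type} (e : X ≃ Y) {h : ℕ} (δ : X → α → X),
      (∀ p q : Y, SH h {w : List α | w.foldl (fun y a => e (δ (e.symm y) a)) p = q}) →
      ∀ p q : X, SH h {w : List α | w.foldl δ p = q} := by
    intro X Y e h δ hY p q
    have hf : ∀ (w : List α) (p : X),
        w.foldl (fun y a => e (δ (e.symm y) a)) (e p) = e (w.foldl δ p) := by
      intro w
      induction w with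
      | nil => intro p; rfl
      | cons a w ih =>
        intro p
        rw [List.foldl_cons, List.foldl_cons, Equiv.symm_apply_apply]
        exact ih _
    refine Eq.mp (congrArg (SH h) ?_) (hY (e p) (e q))
    ext w
    simp only [Set.mem_setOf_eq]
    rw [hf, e.apply_eq_iff_eq]
  induction n with
  | zero =>
    intro X _ hX δ p q
    have e : X ≃ Fin 3 := Finite.equivFinOfCardEq hX
    exact conj e δ (fun p q => all_sh _ p q) p q
  | succ n ih =>
    intro X _ hX δ p q
    have e : X ≃ Option (Fin (n + 3)) :=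
      (Finite.equivFinOfCardEq hX).trans (finSuccEquiv (n + 3))
    refine conj e δ (fun p q => ?_) p q
    refine reach_off _ (fun (y : Fin (n + 3)) a => ((e (δ (e.symm (some y)) a)).getD y)) ?_ ?_ p q
    · intro x a y h
      simp only [h, Option.getD_some]
    · intro x y
      exact ih (Fin (n + 3)) (by simp) _ x y

end Vale.Agent.P329.H550
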