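import Vale.Agent.P329.H550.Main

/-!
P329: automata whose strongly connected components are small.
-/

set_option linter.all false

namespace Vale.Agent.P329.H550

open Vale.Agent.P329 Vale.Agent.P329.H112 Vale.Agent.P329.H157 Vale.Agent.P329.H647
  Vale.Agent.P329.H96

section scc

variable {α X : Type} (δ : X → α → X)

/-- `q` can be reached from `p` -/
def Rch (p q : X) : Prop := ∃ u : List α, u.foldl δ p = q

theorem Rch.refl (p : X) : Rch δ p p := ⟨[], rfl⟩

variable {δ}

theorem Rch.trans {p q r : X} (h1 : Rch δ p q) (h2 : Rch δ q r) : Rch δ p r := by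
  obtain ⟨u, rfl⟩ := h1
  obtain ⟨v, rfl⟩ := h2
  exact ⟨u ++ v, List.foldl_append ..⟩

theorem Rch.step (p : X) (a : α) : Rch δ p (δ p a) := ⟨[a], rfl⟩

variable (δ)

/-- the strongly connected component of `p` -/
def Cmp (p : X) : Set X := {r | Rch δ p r ∧ Rch δ r p}

/-- leaving a set of states -/
theorem leave (C : Set X) (w : List α) : ∀ p' : X, p' ∈ C → w.foldl δ p' ∉ C →
    ∃ u b v z, w = (u ++ [b]) ++ v ∧ u.foldl δ p' = z ∧ z ∈ C ∧ δ z b ∉ C := by
  induction w with
  | nil => intro p' h1 h2; exact absurd h1 h2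
  | cons a w ih =>
    intro p' h1 h2
    by_cases h3 : δ p' a ∈ C
    · obtain ⟨u, b, v, z, rfl, e2, e3, e4⟩ := ih _ h3 h2
      exact ⟨a :: u, b, v, z, rfl, e2, e3, e4⟩
    · exact ⟨[], a, w, p', rfl, rfl, h1, h3⟩

/-- From the components to the whole automaton. -/
theorem scc_sh [Finite α] [Finite X] {h : ℕ}
    (hC : ∀ p z : X, z ∈ Cmp δ p → SH h {w : List α | w.foldl δ p = z}) :
    ∀ (N : ℕ) (p q : X), {r | Rch δ p r}.ncard ≤ N → SH h {w : List α | w.foldl δ p = q} := by
  classical
  intro N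
  induction N with
  | zero =>
    intro p q hN
    have h1 : {r | Rch δ p r} = ∅ := (Set.ncard_eq_zero (Set.toFinite _)).1 (Nat.le_zero.1 hN)
    exact absurd (show p ∈ {r | Rch δ p r} from Rch.refl δ p) (by rw [h1]; exact id)
  | succ N ih =>
    intro p q hN
    by_cases hq : q ∈ Cmp δ p
    · exact hC p q hq
    · have hrec : ∀ (z : X) (b : α), z ∈ Cmp δ p → δ z b ∉ Cmp δ p →
          SH h {w : List α | w.foldl δ (δ z b) = q} := by
        intro z b hz hb
        refine ih _ _ ?_
        have h1 : {r | Rch δ (δ z b) r} ⊂ {r | Rch δ p r} := by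
          refine ⟨fun r hr => (hz.1.trans (Rch.step z b)).trans hr, fun hsub => hb ?_⟩
          exact ⟨hz.1.trans (Rch.step z b), hsub (Rch.refl δ p)⟩
        have h2 := Set.ncard_lt_ncard h1 (Set.toFinite _)
        omega
      have h1 : SH h (⋃ z : X, ⋃ b : α, ⋃ _ : z ∈ Cmp δ p ∧ δ z b ∉ Cmp δ p,
          (if z ∈ Cmp δ p ∧ δ z b ∉ Cmp δ p then
            cat (cat {u : List α | u.foldl δ p = z} {[b]})
              {v : List α | v.foldl δ (δ z b) = q} else ∅)) := by
        refine SH.iUnion fun z => SH.iUnion fun b => SH.iUnion_prop fun h2 => ?_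
        rw [if_pos h2]
        exact ((hC p z h2.1).cat (SH.single b)).cat (hrec z b h2.1 h2.2)
      refine Eq.mp (congrArg (SH h) ?_) h1
      ext w
      simp only [Set.mem_iUnion, exists_prop]
      constructor
      · rintro ⟨z, b, h2, h3⟩
        rw [if_pos h2] at h3
        obtain ⟨u', ⟨u, hu, s, hs, rfl⟩, v, hv, rfl⟩ := h3
        rw [Set.mem_singleton_iff.1 hs]
        change (u ++ [b] ++ v).foldl δ p = q
        rw [List.foldl_append, List.foldl_append, show u.foldl δ p = z from hu]
        exact hv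
      · intro hw
        change w.foldl δ p = q at hw
        obtain ⟨u, b, v, z, rfl, e2, e3, e4⟩ := leave δ (Cmp δ p) w p
          ⟨Rch.refl δ p, Rch.refl δ p⟩ (by rw [hw]; exact hq)
        refine ⟨z, b, ⟨e3, e4⟩, ?_⟩
        rw [if_pos ⟨e3, e4⟩]
        refine ⟨u ++ [b], ⟨u, e2, [b], rfl, rfl⟩, v, ?_, rfl⟩
        change v.foldl δ (δ z b) = q
        rw [List.foldl_append, List.foldl_append, e2] at hw
        exact hw

open Classical in
/-- the automaton of a component, `none` = outside -/
noncomputable def dC (C : Set X) : Option C → α → Option C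
  | none, _ => none
  | some y, a => if h : δ y a ∈ C then some ⟨δ y a, h⟩ else none

open Classical in
/-- a total automaton on a component -/
noncomputable def eC (C : Set X) (y : C) (a : α) : C :=
  if h : δ y a ∈ C then ⟨δ y a, h⟩ else y

theorem comp_sh [Finite α] [Finite X] (n : ℕ) (p z : X) (hz : z ∈ Cmp δ p)
    (hn : (Cmp δ p).ncard ≤ n + 3) : SH (n + 1) {w : List α | w.foldl δ p = z} := by
  classical
  have hpp : p ∈ Cmp δ p := ⟨Rch.refl δ p, Rch.refl δ p⟩
  have hcard : Nat.card (Cmp δ p) ≤ n + 3 := hn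
  have h1 := off_sh (h := n + 1) (dC δ (Cmp δ p)) (eC δ (Cmp δ p)) (by
      intro x a y h
      change (if h : δ x a ∈ Cmp δ p then some ⟨δ x a, h⟩ else none) = some y at h
      unfold eC
      split_ifs at h ⊢ with h2
      · exact Option.some.inj h) (fun x y => states_le_sh n _ hcard _ x y) ⟨p, hpp⟩ ⟨z, hz⟩
  have key : ∀ (w : List α) (y : Cmp δ p), w.foldl (off (dC δ (Cmp δ p))) (some y) =
      some ⟨z, hz⟩ ↔ w.foldl δ y = z := by
    intro w
    induction w with
    | nil =>
      intro y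
      rw [List.foldl_nil, List.foldl_nil, Option.some.injEq]
      exact ⟨fun h => by rw [h], fun h => Subtype.ext h⟩
    | cons a w ih =>
      intro y
      rw [List.foldl_cons, List.foldl_cons, off_some]
      change w.foldl (off (dC δ (Cmp δ p)))
        (if h : δ y a ∈ Cmp δ p then some ⟨δ y a, h⟩ else none) = some ⟨z, hz⟩ ↔ _
      by_cases h : δ y a ∈ Cmp δ p
      · rw [dif_pos h]
        exact ih ⟨δ y a, h⟩
      · rw [dif_neg h, off_none]
        constructor
        · intro h2; exact absurd h2 (by simp)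
        · intro h2
          exfalso
          refine h ⟨y.2.1.trans (Rch.step _ _), ?_⟩
          exact Rch.trans (δ := δ) ⟨w, h2⟩ hz.2
  refine Eq.mp (congrArg (SH (n + 1)) ?_) h1
  ext w
  exact key w ⟨p, hpp⟩

/-- **Small strongly connected components.** -/
theorem small_sh [Finite α] [Finite X] (n : ℕ) (hn : ∀ p, (Cmp δ p).ncard ≤ n + 3) (p q : X) :
    SH (n + 1) {w : List α | w.foldl δ p = q} :=
  scc_sh δ (fun p z hz => comp_sh δ n p z hz (hn p)) _ p q le_rfl

end scc

theorem dfa_scc {α σ : Type} [Finite α] [Finite σ] (n : ℕ) (A : DFA α σ)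
    (hX : ∀ q : σ, {r : σ | (∃ u, A.evalFrom q u = r) ∧ ∃ v, A.evalFrom r v = q}.ncard ≤ n + 3) :
    HeightLe (n + 1) {w : List α | w ∈ A.accepts} := by
  have h1 : SH (n + 1) (⋃ q : σ, ⋃ _ : q ∈ A.accept,
      {w : List α | w.foldl A.step A.start = q}) :=
    SH.iUnion fun q => SH.iUnion_prop fun _ => small_sh A.step n (fun p => hX p) _ _
  refine Eq.mp (congrArg (SH (n + 1)) ?_) h1
  ext w
  simp only [Set.mem_iUnion, exists_prop, Set.mem_setOf_eq]
  rw [DFA.mem_accepts]
  constructor
  · rintro ⟨q, hq, rfl⟩; exact hq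
  · intro h; exact ⟨_, h, rfl⟩

end Vale.Agent.P329.H550
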