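import Vale.Agent.P329.S4.Sym
import Vale.Agent.P329.H550.Scc

/-!
P329: visits of the cut state of an automaton which is monotone off the cut state.
-/

set_option linter.all false

namespace Vale.Agent.P329.H550

open Vale.Agent.P329 Vale.Agent.P329.S4

section cl

variable {α σ : Type} {e : σ → α → Option σ} {ρ : σ → ℕ}

/-- Every letter either never increases the rank (and moves down or stays), or it has at most
one value. -/
def ClP (ρ : σ → ℕ) (e : σ → α → Option σ) : Prop :=
  ∀ a, (∀ x y, e x a = some y → ρ y < ρ x ∨ y = x) ∨ ∃ y0, ∀ x y, e x a = some y → y = y0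

theorem cl_word (h : ClP ρ e) (v : List α) :
    (∀ x y, run e x v = some y → ρ y < ρ x ∨ y = x) ∨ ∃ y0, ∀ x y, run e x v = some y → y = y0 := by
  induction v with
  | nil =>
    left
    intro x y h1
    rw [run_nil] at h1
    exact Or.inr (Option.some.inj h1).symm
  | cons a v ih =>
    rcases ih with ih | ⟨y0, ih⟩
    · rcases h a with h1 | ⟨y0, h1⟩
      · left
        intro x y h2
        obtain ⟨s', h3, h4⟩ := run_cons_eq_some h2
        rcases h1 x s' h3 with h5 | h5 <;> rcases ih s' y h4 with h6 | h6
        · left; omega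
        · left; rw [h6]; exact h5
        · left; rw [← h5]; exact h6
        · right; rw [h6, h5]
      · right
        rcases hz : run e y0 v with _ | z
        · refine ⟨y0, fun x y h2 => ?_⟩
          obtain ⟨s', h3, h4⟩ := run_cons_eq_some h2
          rw [h1 x s' h3, hz] at h4
          cases h4
        · refine ⟨z, fun x y h2 => ?_⟩
          obtain ⟨s', h3, h4⟩ := run_cons_eq_some h2
          rw [h1 x s' h3, hz] at h4
          exact (Option.some.inj h4).symm
    · right
      refine ⟨y0, fun x y h2 => ?_⟩
      obtain ⟨s', h3, h4⟩ := run_cons_eq_some h2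
      exact ih s' y h4

theorem noCyc_cl (h : ClP ρ e) : NoCyc e := by
  intro z s n hn hs
  obtain ⟨m, rfl⟩ : ∃ m, n = m + 1 := ⟨n - 1, by omega⟩
  have hs1 := hs
  rw [List.replicate_succ, List.flatten_cons] at hs1
  obtain ⟨s', h1, h2⟩ := run_append_eq_some hs1
  rw [h1]
  rcases cl_word h z with h3 | ⟨y0, h3⟩
  · have h4 : ∀ (m : ℕ) (x y : σ), run e x (List.replicate m z).flatten = some y →
        ρ y < ρ x ∨ y = x := by
      intro m
      induction m with
      | zero =>
        intro x y h5
        have h6 : run e x [] = some y := h5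
        rw [run_nil] at h6
        exact Or.inr (Option.some.inj h6).symm
      | succ m ih =>
        intro x y h5
        rw [List.replicate_succ, List.flatten_cons] at h5
        obtain ⟨x', h6, h7⟩ := run_append_eq_some h5
        rcases h3 x x' h6 with h8 | h8 <;> rcases ih x' y h7 with h9 | h9
        · left; omega
        · left; rw [h9]; exact h8
        · left; rw [← h8]; exact h9
        · right; rw [h9, h8]
    rcases h3 s s' h1 with h5 | h5
    · rcases h4 m s' s h2 with h6 | h6
      · omega
      · rw [h6]
    · rw [h5]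
  · have hs2 := hs
    rw [List.replicate_succ', List.flatten_append, List.flatten_singleton] at hs2
    obtain ⟨s'', h4, h5⟩ := run_append_eq_some hs2
    rw [h3 _ _ h1, h3 _ _ h5]

end cl

section st

variable {α σ : Type} {step : σ → α → σ} {z : σ} {ρ : σ → ℕ}

/-- the same for a total automaton with cut state `z` -/
def ClS (ρ : σ → ℕ) (step : σ → α → σ) (z : σ) : Prop :=
  ∀ a, (∀ x, step x a = z ∨ step x a = x ∨ ρ (step x a) < ρ x) ∨
    ∃ y0, ∀ x, step x a = z ∨ step x a = y0

theorem eA_cl (h : ClS ρ step z) : ClP ρ (eA step z) := by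
  intro a
  rcases h a with h1 | ⟨y0, h1⟩
  · left
    intro x y h2
    unfold eA at h2
    by_cases h0 : step x a = z
    · rw [if_pos h0] at h2; cases h2
    · rw [if_neg h0] at h2
      cases h2
      rcases (h1 x).resolve_left h0 with h3 | h3
      · exact Or.inr h3
      · exact Or.inl h3
  · right
    refine ⟨y0, fun x y h2 => ?_⟩
    unfold eA at h2
    by_cases h0 : step x a = z
    · rw [if_pos h0] at h2; cases h2
    · rw [if_neg h0] at h2
      cases h2
      exact (h1 x).resolve_left h0

theorem eB_cl (h : ClS ρ step z) {b : α} (hb : ∀ x, step x b = x) : ClP ρ (eB step z b) := by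
  intro a
  by_cases hab : a = b
  · left
    intro x y h2
    unfold eB at h2
    rw [hab, hb] at h2
    by_cases h0 : x = z
    · rw [if_pos h0, if_pos ⟨h0, rfl⟩] at h2
      cases h2
      exact Or.inr h0.symm
    · rw [if_neg h0] at h2
      cases h2
      exact Or.inr rfl
  · have e1 : ∀ x y, eB step z b x a = some y → eA step z x a = some y := by
      intro x y h2
      unfold eB at h2
      unfold eA
      by_cases h0 : step x a = z
      · rw [if_pos h0, if_neg fun h3 => hab h3.2] at h2; cases h2
      · rw [if_neg h0] at h2 ⊢; exact h2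
    rcases eA_cl h a with h1 | ⟨y0, h1⟩
    · exact Or.inl fun x y h2 => h1 x y (e1 x y h2)
    · exact Or.inr ⟨y0, fun x y h2 => h1 x y (e1 x y h2)⟩

theorem fold_cl [Finite α] [Finite σ] (h : ClS ρ step z) (s : σ) :
    Kn fun w : List α => w.foldl step s := by
  have h1 := Kn.of_event (noCyc_cl (eA_cl h)) z s
  have h2 : (fin (eA step z) z s) = fun w : List α => w.foldl step s :=
    funext fun w => fin_eA w s
  rw [← h2]; exact h1

theorem visit_cl [Finite α] [Finite σ] (h : ClS ρ step z) {b : α} (hb : ∀ x, step x b = x)
    (s : σ) : KnZ (W step b (ind z) s) := by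
  have h1 := KnZ.of_event (noCyc_cl (eA_cl h)) z s
  have h2 := KnZ.of_event (noCyc_cl (eB_cl h hb)) z s
  exact (h1.sub h2).congr fun w => (eAB_formula (hb z) w s).symm

end st

end Vale.Agent.P329.H550
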