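import Vale.Agent.P329.H550.Three
import Vale.Agent.P329.H62.Rev

/-!
P329: automata with three states, the dual case: one state is merged with another one by every
letter with two values.
-/

set_option linter.all false

namespace Vale.Agent.P329.H550

open Vale.Agent.P329 Vale.Agent.P329.H112 Vale.Agent.P329.H157 Vale.Agent.P329.H647
  Vale.Agent.P329.H96

/-- the value of a functional (`some m` = the functional with kernel `{0, e_m}`) -/
def ev : Option (Fin 3) → Option (Fin 3) → Bool
  | some m, some k => decide (m ≠ k)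
  | _, _ => false

/-- the functional with given values at `e_0` and `e_1` -/
def fromBits : Bool → Bool → Option (Fin 3)
  | false, false => none
  | false, true => some 0
  | true, false => some 1
  | true, true => some 2

/-- the transposed map -/
def lamD (g : Fin 3 → Fin 3) (F : Option (Fin 3)) : Option (Fin 3) :=
  fromBits (ev F (lam g (some 0))) (ev F (lam g (some 1)))

/-- orientation -/
def ori (g : Fin 3 → Fin 3) (q : Fin 3) : Bool := decide (g (q + 2) = g (q + 1) + 2)

/-- the sign of a letter (`false` if it is not a permutation) -/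
def sg (g : Fin 3 → Fin 3) : Bool :=
  decide (g 0 ≠ g 1 ∧ g 1 ≠ g 2 ∧ g 0 ≠ g 2 ∧ g 2 = g 1 + 2)

/-- the affine map `x ↦ lamD g x + t` is monotone or has at most one value off zero -/
def GoodD (j : Fin 3) (g : Fin 3 → Fin 3) (t : Option (Fin 3)) : Prop :=
  (∀ x y : Fin 3, vadd (lamD g (some x)) t = some y → rk j y < rk j x ∨ y = x) ∨
    ∃ y0 : Fin 3, ∀ x y : Fin 3, vadd (lamD g (some x)) t = some y → y = y0

instance (j : Fin 3) (g : Fin 3 → Fin 3) (t : Option (Fin 3)) : Decidable (GoodD j g t) := by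
  unfold GoodD; infer_instance

/-- the invariant -/
def InvD (g : Fin 3 → Fin 3) (u : Bool) (E : Option (Fin 3)) : Prop :=
  ∀ q : Fin 3, g (q + 1) ≠ g (q + 2) →
    ori g q = xor u (xor (ev E (some q)) (xor (ev (some 0) (lam g (some q)))
      (ev (some 0) (some q))))

instance (g : Fin 3 → Fin 3) (u : Bool) (E : Option (Fin 3)) : Decidable (InvD g u E) := by
  unfold InvD; infer_instance

theorem exists_tD : ∀ a b c : Fin 3,
    ((a ≠ b ∧ b ≠ c ∧ a ≠ c) ∨ (a = b ∧ b = c) ∨ (a = b ∨ a = c)) →
    ∃ t1 t2 t3 : Option (Fin 3), InvD ![a, b, c] (sg ![a, b, c]) (add3 t1 t2 t3) ∧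
      GoodD 0 ![a, b, c] t1 ∧ GoodD 1 ![a, b, c] t2 ∧ GoodD 2 ![a, b, c] t3 := by
  decide

theorem ev_vadd : ∀ F G x : Option (Fin 3), ev (vadd F G) x = xor (ev F x) (ev G x) := by decide

theorem ev_lamD : ∀ (a b c : Fin 3) (F x : Option (Fin 3)),
    ev (lamD ![a, b, c] F) x = ev F (lam ![a, b, c] x) := by decide

theorem lamD_vadd : ∀ (a b c : Fin 3) (x y : Option (Fin 3)),
    lamD ![a, b, c] (vadd x y) = vadd (lamD ![a, b, c] x) (lamD ![a, b, c] y) := by
  decide

theorem lam_dif : ∀ (a b c : Fin 3) (x y : Fin 3),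
    lam ![a, b, c] (dif x y) = dif (![a, b, c] x) (![a, b, c] y) := by decide

theorem ori_comp : ∀ (a b c : Fin 3) (x y : Fin 3), x ≠ y →
    ![a, b, c] x ≠ ![a, b, c] y →
    (decide (![a, b, c] y = ![a, b, c] x + 2) : Bool) =
      xor (decide (y = x + 2)) (ori ![a, b, c] (-(x + y))) := by decide

theorem ne_third : ∀ (a b c : Fin 3) (x y : Fin 3), x ≠ y →
    ![a, b, c] x ≠ ![a, b, c] y →
    ![a, b, c] (-(x + y) + 1) ≠ ![a, b, c] (-(x + y) + 2) := by decide

theorem fin_check : ∀ (a b c : Fin 3) (E : Option (Fin 3)),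
    (∀ x, lamD ![a, b, c] (lamD ![a, b, c] x) = lamD ![a, b, c] x) →
    lamD ![a, b, c] E = none → InvD ![a, b, c] false E →
    ∀ p, ![a, b, c] (![a, b, c] (![a, b, c] p)) = ![a, b, c] (![a, b, c] p) := by
  decide

theorem lamD_ext : ∀ F G : Option (Fin 3), (∀ x, ev F x = ev G x) → F = G := by decide

theorem vadd_cancel : ∀ x y z : Option (Fin 3), vadd x z = vadd y z → x = y := by decide

theorem vadd_none : ∀ x : Option (Fin 3), vadd x none = x := by decide

theorem none_vadd : ∀ x : Option (Fin 3), vadd none x = x := by decide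

/-! ### General forms -/

theorem vec (g : Fin 3 → Fin 3) : ![g 0, g 1, g 2] = g := by
  funext p
  fin_cases p <;> rfl

theorem ev_lamD' (g : Fin 3 → Fin 3) (F x : Option (Fin 3)) :
    ev (lamD g F) x = ev F (lam g x) := by
  have h := ev_lamD (g 0) (g 1) (g 2) F x
  rwa [vec] at h

theorem lamD_vadd' (g : Fin 3 → Fin 3) (x y : Option (Fin 3)) :
    lamD g (vadd x y) = vadd (lamD g x) (lamD g y) := by
  have h := lamD_vadd (g 0) (g 1) (g 2) x y
  rwa [vec] at h

theorem lam_dif' (g : Fin 3 → Fin 3) (x y : Fin 3) : lam g (dif x y) = dif (g x) (g y) := by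
  have h := lam_dif (g 0) (g 1) (g 2) x y
  rwa [vec] at h

theorem lam_comp (g c : Fin 3 → Fin 3) (x : Option (Fin 3)) :
    lam (fun p => g (c p)) x = lam g (lam c x) := by
  cases x with
  | none => rfl
  | some q =>
    change dif (g (c (q + 1))) (g (c (q + 2))) = lam g (dif (c (q + 1)) (c (q + 2)))
    rw [lam_dif']

theorem lamD_comp (g c : Fin 3 → Fin 3) (x : Option (Fin 3)) :
    lamD (fun p => g (c p)) x = lamD c (lamD g x) := by
  refine lamD_ext _ _ fun y => ?_
  rw [ev_lamD', ev_lamD', ev_lamD', lam_comp]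

theorem lamD_none (g : Fin 3 → Fin 3) : lamD g none = none := by
  refine lamD_ext _ _ fun y => ?_
  rw [ev_lamD']
  cases lam g y <;> cases y <;> rfl

theorem xor_alg : ∀ uc um ec em tc f1 f2 f3 oc om : Bool,
    oc = xor uc (xor tc (xor f2 f3)) → om = xor um (xor em (xor f1 f2)) →
    xor oc om = xor (xor uc um) (xor (xor em tc) (xor f1 f3)) := by decide

theorem invD_comp {g c : Fin 3 → Fin 3} {u u' : Bool} {E t : Option (Fin 3)}
    (hg : InvD g u E) (hc : InvD c u' t) :
    InvD (fun p => g (c p)) (xor u' u) (vadd (lamD c E) t) := by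
  intro q hq
  have hxy : c (q + 1) ≠ c (q + 2) := fun h => hq (by
    change g (c (q + 1)) = g (c (q + 2))
    rw [h])
  have h1 := hc q hxy
  have hl : lam c (some q) = some (-(c (q + 1) + c (q + 2))) := by
    change dif (c (q + 1)) (c (q + 2)) = _
    unfold dif
    rw [if_neg hxy]
  have hne : g (-(c (q + 1) + c (q + 2)) + 1) ≠ g (-(c (q + 1) + c (q + 2)) + 2) := by
    have h := ne_third (g 0) (g 1) (g 2) (c (q + 1)) (c (q + 2)) hxy
    rw [vec] at h
    exact h hq
  have h2 := hg _ hne
  have h3 : ori (fun p => g (c p)) q =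
      xor (ori c q) (ori g (-(c (q + 1) + c (q + 2)))) := by
    have h := ori_comp (g 0) (g 1) (g 2) (c (q + 1)) (c (q + 2)) hxy
    rw [vec] at h
    exact h hq
  have hl2 : lam (fun p => g (c p)) (some q) = lam g (some (-(c (q + 1) + c (q + 2)))) := by
    rw [lam_comp g c, hl]
  rw [h3, ev_vadd, ev_lamD', hl, hl2]
  rw [hl] at h1
  exact xor_alg _ _ false _ _ _ _ _ _ _ h1 h2

/-! ### Reversed automata -/

section rev

variable {α X : Type}

instance [Finite X] : Finite (Tr X)ᵐᵒᵖ := Finite.of_equiv (Tr X) MulOpposite.opEquiv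

/-- the transformation of a letter, for reading from the right -/
def trr (S : X → α → X) (a : α) : (Tr X)ᵐᵒᵖ := MulOpposite.op ⟨fun x => S x a⟩

theorem trr_prod (S : X → α → X) (w : List α) (x : X) :
    (((w.map (trr S)).prod).unop).f x = w.foldr (fun a x => S x a) x := by
  induction w generalizing x with
  | nil => rfl
  | cons a w ih =>
    rw [List.map_cons, List.prod_cons, MulOpposite.unop_mul, Tr.mul_f, ih, List.foldr_cons]
    rfl

theorem mapLe_trr [Finite α] [Finite X] {h : ℕ} (S : X → α → X)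
    (hF : ∀ x y : X, SH h {w : List α | w.foldl S x = y}) : MapLe h (trr S) := by
  intro U
  have hr : ∀ x y : X, SH h {w : List α | w.foldr (fun a x => S x a) x = y} := by
    intro x y
    refine Eq.mp (congrArg (SH h) ?_) (H62.SH.rev (hF x y))
    ext w
    simp only [Set.mem_setOf_eq, List.foldl_reverse]
  have h1 : SH h (⋃ g : Tr X, ⋃ _ : MulOpposite.op g ∈ U,
      ⋂ x : X, {w : List α | w.foldr (fun a x => S x a) x = g.f x}) :=
    SH.iUnion fun g => SH.iUnion_prop fun _ => SH.iInter fun x => hr x _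
  refine Eq.mp (congrArg (SH h) ?_) h1
  ext w
  simp only [Set.mem_iUnion, exists_prop, Set.mem_iInter]
  change (∃ g : Tr X, MulOpposite.op g ∈ U ∧ ∀ x, w.foldr (fun a x => S x a) x = g.f x) ↔
    (w.map (trr S)).prod ∈ U
  constructor
  · rintro ⟨g, hg, h2⟩
    have h3 : (w.map (trr S)).prod = MulOpposite.op g :=
      MulOpposite.unop_injective (Tr.ext' fun x => by rw [trr_prod, h2]; rfl)
    rw [h3]; exact hg
  · intro hg
    exact ⟨((w.map (trr S)).prod).unop, by rw [MulOpposite.op_unop]; exact hg,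
      fun x => (trr_prod S w x).symm⟩

theorem prod_pair {M N : Type} [Monoid M] [Monoid N] (φ : α → M) (ψ : α → N) (w : List α) :
    (w.map fun a => (φ a, ψ a)).prod = ((w.map φ).prod, (w.map ψ).prod) := by
  induction w with
  | nil => rfl
  | cons a w ih => rw [List.map_cons, List.prod_cons, ih]; rfl

theorem mapLe_prod [Finite α] {h : ℕ} {M N : Type} [Monoid M] [Monoid N] [Finite M] [Finite N]
    {φ : α → M} {ψ : α → N} (h1 : MapLe h φ) (h2 : MapLe h ψ) :
    MapLe h (fun a => (φ a, ψ a)) := by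
  intro S
  have h3 : SH h (⋃ m : M, ⋃ n : N, ⋃ _ : (m, n) ∈ S,
      {w : List α | (w.map φ).prod ∈ ({m} : Set M)} ∩
        {w : List α | (w.map ψ).prod ∈ ({n} : Set N)}) :=
    SH.iUnion fun m => SH.iUnion fun n => SH.iUnion_prop fun _ => SH.inter (h1 {m}) (h2 {n})
  refine Eq.mp (congrArg (SH h) ?_) h3
  ext w
  simp only [Set.mem_iUnion, exists_prop, Set.mem_inter_iff, Set.mem_setOf_eq,
    Set.mem_singleton_iff]
  rw [prod_pair]
  constructor
  · rintro ⟨m, n, hmn, e1, e2⟩
    rw [e1, e2]; exact hmn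
  · intro hw
    exact ⟨_, _, hw, rfl, rfl⟩

end rev

/-- flip a bit -/
def flp (b : Bool) : Option Unit → Option Unit
  | none => if b = true then some () else none
  | some _ => if b = true then none else some ()

theorem flp_flp (b c : Bool) (x : Option Unit) : flp b (flp c x) = flp (xor c b) x := by
  cases b <;> cases c <;> cases x <;> rfl

/-! ### The theorem -/

theorem dual_sh {α : Type} [Finite α] (δ : Fin 3 → α → Fin 3)
    (hδ : ∀ a, (δ 0 a ≠ δ 1 a ∧ δ 1 a ≠ δ 2 a ∧ δ 0 a ≠ δ 2 a) ∨
      (δ 0 a = δ 1 a ∧ δ 1 a = δ 2 a) ∨ (δ 0 a = δ 1 a ∨ δ 0 a = δ 2 a))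
    (p q : Fin 3) : SH 1 {w : List α | w.foldl δ p = q} := by
  choose t1 t2 t3 ht h1 h2 h3 using fun a => exists_tD _ _ _ (hδ a)
  let S1 : Option (Fin 3) → α → Option (Fin 3) := fun x a => vadd (lamD (col δ a) x) (t1 a)
  let S2 : Option (Fin 3) → α → Option (Fin 3) := fun x a => vadd (lamD (col δ a) x) (t2 a)
  let S3 : Option (Fin 3) → α → Option (Fin 3) := fun x a => vadd (lamD (col δ a) x) (t3 a)
  let T0 : Option Unit → α → Option Unit := fun x a => flp (sg (col δ a)) x
  have s1 : MapLe 1 (trr S1) := mapLe_trr S1 fun x y =>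
    mono_sh (ρ := rk 0) (δ := S1) (fun a => h1 a) x y
  have s2 : MapLe 1 (trr S2) := mapLe_trr S2 fun x y =>
    mono_sh (ρ := rk 1) (δ := S2) (fun a => h2 a) x y
  have s3 : MapLe 1 (trr S3) := mapLe_trr S3 fun x y =>
    mono_sh (ρ := rk 2) (δ := S3) (fun a => h3 a) x y
  have s0 : MapLe 1 (tr T0) := mapLe_tr T0 fun x y =>
    mono_sh (ρ := fun _ => 0) (δ := T0) (fun a => Or.inr ⟨(), fun _ _ _ => rfl⟩) x y
  have sall := mapLe_prod s0 (mapLe_prod s1 (mapLe_prod s2 s3))
  refine sh_of_mapLe δ ?_ p q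
  refine H162.Str.straubing _ sall (tr δ) fun v _ hv => ⟨2, Tr.ext' fun z => ?_⟩
  rw [prod_pair, prod_pair, prod_pair] at hv
  have hv0 := congrArg Prod.fst hv
  have hv1 := congrArg (fun m => m.2.1) hv
  have hv2 := congrArg (fun m => m.2.2.1) hv
  have hv3 := congrArg (fun m => m.2.2.2) hv
  simp only [Prod.fst_mul, Prod.snd_mul] at hv0 hv1 hv2 hv3
  -- the words
  let gw : List α → Fin 3 → Fin 3 := fun w p => w.foldl δ p
  let uw : List α → Bool := fun w => w.foldr (fun a u => xor (sg (col δ a)) u) false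
  let E1 : List α → Option (Fin 3) := fun w => w.foldr (fun a x => S1 x a) none
  let E2 : List α → Option (Fin 3) := fun w => w.foldr (fun a x => S2 x a) none
  let E3 : List α → Option (Fin 3) := fun w => w.foldr (fun a x => S3 x a) none
  have hgw : ∀ a w, gw (a :: w) = fun p => gw w (col δ a p) := by
    intro a w
    funext p
    change (a :: w).foldl δ p = w.foldl δ (col δ a p)
    rw [List.foldl_cons, col_apply]
  have hrun : ∀ (t : α → Option (Fin 3)) (w : List α) (x : Option (Fin 3)),
      w.foldr (fun a x => vadd (lamD (col δ a) x) (t a)) x =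
        vadd (lamD (gw w) x) (w.foldr (fun a x => vadd (lamD (col δ a) x) (t a)) none) := by
    intro t w
    induction w with
    | nil =>
      intro x
      change x = vadd (lamD (fun p => p) x) none
      rw [vadd_none]
      refine lamD_ext _ _ fun y => ?_
      rw [ev_lamD']
      have : ∀ y : Option (Fin 3), lam (fun p => p) y = y := by decide
      rw [this]
    | cons a w ih =>
      intro x
      have hc : lamD (gw (a :: w)) x = lamD (col δ a) (lamD (gw w) x) := by
        rw [hgw]; exact lamD_comp (gw w) (col δ a) x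
      rw [List.foldr_cons, List.foldr_cons, ih x, lamD_vadd', hc, vadd_assoc]
  have hinv : ∀ w : List α, InvD (gw w) (uw w) (add3 (E1 w) (E2 w) (E3 w)) := by
    intro w
    induction w with
    | nil =>
      change InvD (fun p => p) false (add3 none none none)
      decide
    | cons a w ih =>
      have h := invD_comp ih (ht a)
      have e1 : add3 (E1 (a :: w)) (E2 (a :: w)) (E3 (a :: w)) =
          vadd (lamD (col δ a) (add3 (E1 w) (E2 w) (E3 w))) (add3 (t1 a) (t2 a) (t3 a)) := by
        change add3 (vadd (lamD (col δ a) (E1 w)) (t1 a)) (vadd (lamD (col δ a) (E2 w)) (t2 a))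
          (vadd (lamD (col δ a) (E3 w)) (t3 a)) = _
        rw [add_perm]
        unfold add3
        rw [lamD_vadd', lamD_vadd']
      rw [e1, hgw]
      exact h
  -- the sign
  have hT0 : ∀ (w : List α) (x : Option Unit), w.foldl T0 x = flp (uw w) x := by
    intro w
    induction w with
    | nil => intro x; cases x <;> rfl
    | cons a w ih =>
      intro x
      rw [List.foldl_cons, ih]
      exact flp_flp _ _ _
  have hu : uw v = false := by
    have h := congrArg (fun m : Tr (Option Unit) => m.f none) hv0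
    simp only [Tr.mul_f, tr_prod] at h
    rw [hT0, hT0] at h
    cases hb : uw v with
    | false => rfl
    | true => rw [hb] at h; exact absurd h (by decide)
  -- the reversed automata
  have hS : ∀ (t : α → Option (Fin 3)),
      ((v.map (trr fun x a => vadd (lamD (col δ a) x) (t a))).prod) *
        ((v.map (trr fun x a => vadd (lamD (col δ a) x) (t a))).prod) =
        ((v.map (trr fun x a => vadd (lamD (col δ a) x) (t a))).prod) →
      (∀ x, lamD (gw v) (lamD (gw v) x) = lamD (gw v) x) ∧
        lamD (gw v) (v.foldr (fun a x => vadd (lamD (col δ a) x) (t a)) none) = none := by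
    intro t h
    have h4 : ∀ x : Option (Fin 3), v.foldr (fun a x => vadd (lamD (col δ a) x) (t a))
        (v.foldr (fun a x => vadd (lamD (col δ a) x) (t a)) x) =
        v.foldr (fun a x => vadd (lamD (col δ a) x) (t a)) x := by
      intro x
      have h5 := congrArg (fun m : (Tr (Option (Fin 3)))ᵐᵒᵖ => (m.unop).f x) h
      simp only [MulOpposite.unop_mul, Tr.mul_f, trr_prod] at h5
      exact h5
    have h6 : lamD (gw v) (v.foldr (fun a x => vadd (lamD (col δ a) x) (t a)) none) = none := by
      have h7 := h4 none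
      rw [hrun t v (v.foldr (fun a x => vadd (lamD (col δ a) x) (t a)) none)] at h7
      refine vadd_cancel _ _ (v.foldr (fun a x => vadd (lamD (col δ a) x) (t a)) none) ?_
      rw [h7, none_vadd]
    refine ⟨fun x => ?_, h6⟩
    have h7 := h4 x
    rw [hrun t v (v.foldr _ x), hrun t v x, lamD_vadd', h6, vadd_none] at h7
    exact vadd_cancel _ _ _ h7
  obtain ⟨g1, g2⟩ := hS t1 hv1
  obtain ⟨-, g3⟩ := hS t2 hv2
  obtain ⟨-, g4⟩ := hS t3 hv3
  have g5 : lamD (gw v) (add3 (E1 v) (E2 v) (E3 v)) = none := by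
    unfold add3
    rw [lamD_vadd', lamD_vadd']
    change vadd (vadd (lamD (gw v) (E1 v)) (lamD (gw v) (E2 v))) (lamD (gw v) (E3 v)) = none
    rw [show lamD (gw v) (E1 v) = none from g2, show lamD (gw v) (E2 v) = none from g3,
      show lamD (gw v) (E3 v) = none from g4]
    rfl
  have g6 := hinv v
  rw [hu] at g6
  have g7 := fin_check (gw v 0) (gw v 1) (gw v 2) (add3 (E1 v) (E2 v) (E3 v))
  rw [vec] at g7
  have g8 := g7 g1 g5 g6 z
  have e3 : ((v.map (tr δ)).prod ^ (2 + 1)).f z = gw v (gw v (gw v z)) := by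
    rw [pow_succ, pow_succ, pow_one, Tr.mul_f, Tr.mul_f, tr_prod, tr_prod, tr_prod]
  have e2 : ((v.map (tr δ)).prod ^ 2).f z = gw v (gw v z) := by
    rw [pow_succ, pow_one, Tr.mul_f, tr_prod, tr_prod]
  rw [e3, e2]
  exact g8

end Vale.Agent.P329.H550
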