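import Vale.Agent.P329.H550.Aff

/-!
P329: automata with four states all of whose letters have fibres of equal size.
-/

set_option linter.all false

namespace Vale.Agent.P329.H550

open Vale.Agent.P329 Vale.Agent.P329.S4 Vale.Agent.P329.H112 Vale.Agent.P329.H157
  Vale.Agent.P329.H647 Vale.Agent.P329.H96

/-- the four points as vectors -/
def c4 (x : Fin 4) : V := dc x.val

theorem c4_inj : ∀ x y : Fin 4, c4 x = c4 y → x = y := by decide

/-- sizes of the fibres -/
def fs (g : Fin 4 → Fin 4) (q : Fin 4) : ℕ :=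
  (if g 0 = g q then 1 else 0) + (if g 1 = g q then 1 else 0) + (if g 2 = g q then 1 else 0) +
    (if g 3 = g q then 1 else 0)

set_option maxRecDepth 100000 in
theorem aff4 : ∀ a b c d : Fin 4,
    (∀ q : Fin 4, fs ![a, b, c, d] q = fs ![a, b, c, d] 0) →
    c4 b = ap (c4 b + c4 a, c4 c + c4 a) (c4 1) + c4 a ∧
    c4 c = ap (c4 b + c4 a, c4 c + c4 a) (c4 2) + c4 a ∧
    c4 d = ap (c4 b + c4 a, c4 c + c4 a) (c4 3) + c4 a := by decide

theorem fs_eq (g : Fin 4 → Fin 4) (q : Fin 4) : {p | g p = g q}.ncard = fs g q := by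
  classical
  have h : {p | g p = g q} = ((Finset.univ.filter fun p => g p = g q : Finset (Fin 4)) :
      Set (Fin 4)) := by
    ext p
    simp
  rw [h, Set.ncard_coe_finset, Finset.card_filter, Fin.sum_univ_four]
  rfl

/-- **Four states, fibres of equal size.** -/
theorem four_sh {α : Type} [Finite α] (δ : Fin 4 → α → Fin 4)
    (hδ : ∀ a q r, {p | δ p a = δ q a}.ncard = {p | δ p a = δ r a}.ncard) (p q : Fin 4) :
    SH 1 {w : List α | w.foldl δ p = q} := by
  let μ : α → V × V := fun a => (c4 (δ 1 a) + c4 (δ 0 a), c4 (δ 2 a) + c4 (δ 0 a))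
  let κ : α → V := fun a => c4 (δ 0 a)
  have h1 : ∀ (x : Fin 4) (a : α), st μ κ (c4 x) a = c4 (δ x a) := by
    intro x a
    have e : ![δ 0 a, δ 1 a, δ 2 a, δ 3 a] = fun x => δ x a := by
      funext x
      fin_cases x <;> rfl
    have h2 := aff4 (δ 0 a) (δ 1 a) (δ 2 a) (δ 3 a) (by
      rw [e]
      intro q
      rw [← fs_eq, ← fs_eq]
      exact hδ a q 0)
    change ap (c4 (δ 1 a) + c4 (δ 0 a), c4 (δ 2 a) + c4 (δ 0 a)) (c4 x) + c4 (δ 0 a) = c4 (δ x a)
    match x with
    | 0 =>
      rw [show c4 0 = 0 from rfl, ap_zero, zero_add]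
    | 1 => exact h2.1.symm
    | 2 => exact h2.2.1.symm
    | 3 => exact h2.2.2.symm
  have h2 : ∀ (w : List α) (x : Fin 4), w.foldl (st μ κ) (c4 x) = c4 (w.foldl δ x) := by
    intro w
    induction w with
    | nil => intro x; rfl
    | cons a w ih => intro x; rw [List.foldl_cons, List.foldl_cons, h1, ih]
  refine Eq.mp (congrArg (SH 1) ?_) (aff_known μ κ (c4 p) (c4 q))
  ext w
  simp only [Set.mem_setOf_eq]
  rw [h2]
  exact ⟨fun h => c4_inj _ _ h, fun h => by rw [h]⟩

theorem dfa_four {α σ : Type} [Finite α] (A : DFA α σ) (hσ : Nat.card σ = 4)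
    (hA : ∀ (a : α) (q r : σ),
      {p | A.step p a = A.step q a}.ncard = {p | A.step p a = A.step r a}.ncard) :
    HeightLe 1 {w : List α | w ∈ A.accepts} := by
  have hf : Finite σ := Nat.finite_of_card_ne_zero (by rw [hσ]; norm_num)
  let e : σ ≃ Fin 4 := Finite.equivFinOfCardEq hσ
  let δ : Fin 4 → α → Fin 4 := fun y a => e (A.step (e.symm y) a)
  have hδ : ∀ a q r, {p | δ p a = δ q a}.ncard = {p | δ p a = δ r a}.ncard := by
    intro a
    have h1 : ∀ q : Fin 4, {p | δ p a = δ q a}.ncard =
        {p | A.step p a = A.step (e.symm q) a}.ncard := by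
      intro q
      have h2 : {p | δ p a = δ q a} = e '' {p | A.step p a = A.step (e.symm q) a} := by
        ext p
        simp only [Set.mem_setOf_eq, Set.mem_image]
        constructor
        · intro h3
          exact ⟨e.symm p, e.injective h3, e.apply_symm_apply p⟩
        · rintro ⟨x, hx, rfl⟩
          change e (A.step (e.symm (e x)) a) = e (A.step (e.symm q) a)
          rw [e.symm_apply_apply, hx]
      rw [h2, Set.ncard_image_of_injective _ e.injective]
    intro q r
    rw [h1, h1]
    exact hA a _ _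
  have hw : ∀ (w : List α) (x : σ), w.foldl δ (e x) = e (w.foldl A.step x) := by
    intro w
    induction w with
    | nil => intro x; rfl
    | cons a w ih =>
      intro x
      have h1 : δ (e x) a = e (A.step x a) := by
        change e (A.step (e.symm (e x)) a) = _
        rw [e.symm_apply_apply]
      rw [List.foldl_cons, List.foldl_cons, h1, ih]
  have h1 : SH 1 (⋃ q : Fin 4, ⋃ _ : e.symm q ∈ A.accept,
      {w : List α | w.foldl δ (e A.start) = q}) :=
    SH.iUnion fun q => SH.iUnion_prop fun _ => four_sh δ hδ _ _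
  refine Eq.mp (congrArg (SH 1) ?_) h1
  ext w
  simp only [Set.mem_iUnion, exists_prop, Set.mem_setOf_eq]
  rw [DFA.mem_accepts]
  constructor
  · rintro ⟨q, hq, h2⟩
    rw [hw] at h2
    rw [← h2, e.symm_apply_apply] at hq
    exact hq
  · intro h
    refine ⟨e (w.foldl A.step A.start), ?_, hw _ _⟩
    rw [e.symm_apply_apply]
    exact h

/-- families of three-state automata, four-state automata with fibres of equal size and known
groups -/
theorem over_four {α ι ι' κ : Type} [Finite α] [Finite ι] [Finite ι'] [Finite κ]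
    (δ : ι → Fin 3 → α → Fin 3) (ε : ι' → Fin 4 → α → Fin 4)
    (hε : ∀ i a q r, {p | ε i p a = ε i q a}.ncard = {p | ε i p a = ε i r a}.ncard)
    (H : κ → Type) [∀ k, Group (H k)] [∀ k, Finite (H k)] (F : α → ∀ k, H k)
    (hH : ∀ k, DividesProduct (H k)) (M : Type) [Monoid M] [Finite M] (φ : α → M)
    (hφ : ∀ v : List α, v ≠ [] → (v.map F).prod = 1 →
      (∀ i x, v.foldl (δ i) (v.foldl (δ i) x) = v.foldl (δ i) x) →
      (∀ i x, v.foldl (ε i) (v.foldl (ε i) x) = v.foldl (ε i) x) →
        ∃ k, (v.map φ).prod ^ (k + 1) = (v.map φ).prod ^ k) : MapLe 1 φ := by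
  let D : (ι → Fin 3) → α → (ι → Fin 3) := fun x a i => δ i (x i) a
  have hD : ∀ (w : List α) (x : ι → Fin 3) (i : ι), w.foldl D x i = w.foldl (δ i) (x i) := by
    intro w
    induction w with
    | nil => intro x i; rfl
    | cons a w ih => intro x i; rw [List.foldl_cons, List.foldl_cons, ih]
  let E : (ι' → Fin 4) → α → (ι' → Fin 4) := fun x a i => ε i (x i) a
  have hE : ∀ (w : List α) (x : ι' → Fin 4) (i : ι'), w.foldl E x i = w.foldl (ε i) (x i) := by
    intro w
    induction w with
    | nil => intro x i; rfl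
    | cons a w ih => intro x i; rw [List.foldl_cons, List.foldl_cons, ih]
  have s1 : MapLe 1 (tr D) := by
    refine mapLe_tr D fun x y => ?_
    have h1 : SH 1 (⋂ i : ι, {w : List α | w.foldl (δ i) (x i) = y i}) :=
      SH.iInter fun i => all_sh (δ i) _ _
    refine Eq.mp (congrArg (SH 1) ?_) h1
    ext w
    simp only [Set.mem_iInter, Set.mem_setOf_eq]
    constructor
    · intro h; funext i; rw [hD]; exact h i
    · intro h i; rw [← hD, h]
  have s3 : MapLe 1 (tr E) := by
    refine mapLe_tr E fun x y => ?_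
    have h1 : SH 1 (⋂ i : ι', {w : List α | w.foldl (ε i) (x i) = y i}) :=
      SH.iInter fun i => four_sh (ε i) (hε i) _ _
    refine Eq.mp (congrArg (SH 1) ?_) h1
    ext w
    simp only [Set.mem_iInter, Set.mem_setOf_eq]
    constructor
    · intro h; funext i; rw [hE]; exact h i
    · intro h i; rw [← hE, h]
  have s2 : MapLe 1 F := MapLe.pi F fun k => Or.inl (hH k)
  refine H162.Str.straubing _ (mapLe_prod (mapLe_prod s1 s3) s2) φ fun v hv hid => ?_
  rw [prod_pair, prod_pair] at hid
  have h12 := congrArg Prod.fst hid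
  have h2 := congrArg Prod.snd hid
  simp only [Prod.fst_mul, Prod.snd_mul] at h12 h2
  have h1 := congrArg Prod.fst h12
  have h3 := congrArg Prod.snd h12
  simp only [Prod.fst_mul, Prod.snd_mul] at h1 h3
  refine hφ v hv (mul_eq_left.1 h2) (fun i x => ?_) fun i x => ?_
  · have h4 := congrFun (congrArg (fun m : Tr (ι → Fin 3) => m.f (fun _ => x)) h1) i
    simp only [Tr.mul_f, tr_prod] at h4
    rw [hD, hD] at h4
    exact h4
  · have h4 := congrFun (congrArg (fun m : Tr (ι' → Fin 4) => m.f (fun _ => x)) h3) i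
    simp only [Tr.mul_f, tr_prod] at h4
    rw [hE, hE] at h4
    exact h4

end Vale.Agent.P329.H550
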