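import Vale.Agent.P329.H550.Dual
import Vale.Agent.P329.H550.All
import Mathlib.Computability.DFA

/-!
P329: automata with few states, the final forms.
-/

set_option linter.all false

namespace Vale.Agent.P329.H550

open Vale.Agent.P329 Vale.Agent.P329.H112 Vale.Agent.P329.H157 Vale.Agent.P329.H647
  Vale.Agent.P329.H96

/-- at most `n + 3` states -/
theorem states_le_sh {α : Type} [Finite α] (n : ℕ) (X : Type) [Finite X]
    (hX : Nat.card X ≤ n + 3) (δ : X → α → X) (p q : X) :
    SH (n + 1) {w : List α | w.foldl δ p = q} := by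
  classical
  have := Fintype.ofFinite X
  obtain ⟨e⟩ : Nonempty (X ↪ Fin (n + 3)) := by
    refine Function.Embedding.nonempty_of_card_le ?_
    rw [Fintype.card_fin, ← Nat.card_eq_fintype_card]
    exact hX
  let δ' : Fin (n + 3) → α → Fin (n + 3) := fun y a =>
    if h : ∃ x, e x = y then e (δ h.choose a) else y
  have h1 : ∀ (x : X) (a : α), δ' (e x) a = e (δ x a) := by
    intro x a
    have h : ∃ x', e x' = e x := ⟨x, rfl⟩
    change (if h : ∃ x', e x' = e x then e (δ h.choose a) else e x) = _
    rw [dif_pos h, e.injective h.choose_spec]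
  have hf : ∀ (w : List α) (p : X), w.foldl δ' (e p) = e (w.foldl δ p) := by
    intro w
    induction w with
    | nil => intro p; rfl
    | cons a w ih => intro p; rw [List.foldl_cons, List.foldl_cons, h1, ih]
  refine Eq.mp (congrArg (SH (n + 1)) ?_)
    (states_sh n (Fin (n + 3)) (by simp) δ' (e p) (e q))
  ext w
  simp only [Set.mem_setOf_eq]
  rw [hf, e.injective.eq_iff]

theorem dfa_le {α σ : Type} [Finite α] [Finite σ] (n : ℕ) (A : DFA α σ)
    (hX : Nat.card σ ≤ n + 3) : HeightLe (n + 1) {w : List α | w ∈ A.accepts} := by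
  have h1 : SH (n + 1) (⋃ q : σ, ⋃ _ : q ∈ A.accept,
      {w : List α | w.foldl A.step A.start = q}) :=
    SH.iUnion fun q => SH.iUnion_prop fun _ => states_le_sh n σ hX A.step _ _
  refine Eq.mp (congrArg (SH (n + 1)) ?_) h1
  ext w
  simp only [Set.mem_iUnion, exists_prop, Set.mem_setOf_eq]
  rw [DFA.mem_accepts]
  constructor
  · rintro ⟨q, hq, rfl⟩; exact hq
  · intro h; exact ⟨_, h, rfl⟩

/-- families of three-state automata and known groups -/
theorem over_le {α ι κ : Type} [Finite α] [Finite ι] [Finite κ] (δ : ι → Fin 3 → α → Fin 3)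
    (H : κ → Type) [∀ k, Group (H k)] [∀ k, Finite (H k)] (F : α → ∀ k, H k)
    (hH : ∀ k, DividesProduct (H k)) (M : Type) [Monoid M] [Finite M] (φ : α → M)
    (hφ : ∀ v : List α, v ≠ [] → (v.map F).prod = 1 →
      (∀ i x, v.foldl (δ i) (v.foldl (δ i) x) = v.foldl (δ i) x) →
        ∃ k, (v.map φ).prod ^ (k + 1) = (v.map φ).prod ^ k) : MapLe 1 φ := by
  let D : (ι → Fin 3) → α → (ι → Fin 3) := fun x a i => δ i (x i) a
  have hD : ∀ (w : List α) (x : ι → Fin 3) (i : ι), w.foldl D x i = w.foldl (δ i) (x i) := by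
    intro w
    induction w with
    | nil => intro x i; rfl
    | cons a w ih => intro x i; rw [List.foldl_cons, List.foldl_cons, ih]
  have s1 : MapLe 1 (tr D) := by
    refine mapLe_tr D fun x y => ?_
    have h1 : SH 1 (⋂ i : ι, {w : List α | w.foldl (δ i) (x i) = y i}) :=
      SH.iInter fun i => all_sh (δ i) _ _
    refine Eq.mp (congrArg (SH 1) ?_) h1
    ext w
    simp only [Set.mem_iInter, Set.mem_setOf_eq]
    constructor
    · intro h; funext i; rw [hD]; exact h i
    · intro h i; rw [← hD, h]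
  have s2 : MapLe 1 F := MapLe.pi F fun k => Or.inl (hH k)
  refine H162.Str.straubing _ (mapLe_prod s1 s2) φ fun v hv hid => ?_
  rw [prod_pair] at hid
  have h1 := congrArg Prod.fst hid
  have h2 := congrArg Prod.snd hid
  simp only [Prod.fst_mul, Prod.snd_mul] at h1 h2
  refine hφ v hv (mul_eq_left.1 h2) fun i x => ?_
  have h3 := congrFun (congrArg (fun m : Tr (ι → Fin 3) => m.f (fun _ => x)) h1) i
  simp only [Tr.mul_f, tr_prod] at h3
  rw [hD, hD] at h3
  exact h3

end Vale.Agent.P329.H550
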