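import Vale.Agent.P329.H550.Off

/-!
P329: automata which are monotone off one state.
-/

set_option linter.all false

namespace Vale.Agent.P329.H550

open Vale.Agent.P329 Vale.Agent.P329.H112 Vale.Agent.P329.H157 Vale.Agent.P329.H647
  Vale.Agent.P329.H96

/-- Off the root every letter either does not increase the rank, or it has at most one value. -/
def MonoOff {α Y : Type} (ρ : Y → ℕ) (δ : Option Y → α → Option Y) : Prop :=
  ∀ a, (∀ x y, δ (some x) a = some y → ρ y < ρ x ∨ y = x) ∨
    ∃ y0, ∀ x y, δ (some x) a = some y → y = y0

theorem mapLe_unit {α : Type} : MapLe 0 (fun _ : α => (() : Unit)) := by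
  intro S
  by_cases h : (() : Unit) ∈ S
  · have h1 : SH 0 ((∅ : Set (List α))ᶜ) := (SH.empty).compl
    refine Eq.mp (congrArg (SH 0) ?_) h1
    ext w
    simp only [Set.mem_compl_iff, Set.mem_empty_iff_false, not_false_eq_true, true_iff]
    exact h
  · have h1 : SH 0 (∅ : Set (List α)) := SH.empty
    refine Eq.mp (congrArg (SH 0) ?_) h1
    ext w
    simp only [Set.mem_empty_iff_false, false_iff]
    exact h

section mono

variable {α Y : Type} {ρ : Y → ℕ} {δ : Option Y → α → Option Y}

theorem mono_word (hM : MonoOff ρ δ) (v : List α) :
    (∀ x y, v.foldl (off δ) (some x) = some y → ρ y < ρ x ∨ y = x) ∨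
    ∃ y0, ∀ x y, v.foldl (off δ) (some x) = some y → y = y0 := by
  induction v with
  | nil => exact Or.inl fun x y h => Or.inr (by simpa using h.symm)
  | cons a v ih =>
    rcases ih with ih | ⟨y0, ih⟩
    · rcases hM a with h1 | ⟨y0, h1⟩
      · left
        intro x y h
        rw [List.foldl_cons, off_some] at h
        cases hx : δ (some x) a with
        | none => rw [hx, off_none] at h; exact absurd h (by simp)
        | some x' =>
          rw [hx] at h
          rcases h1 x x' hx with h2 | h2 <;> rcases ih x' y h with h3 | h3
          · left; omega
          · left; rw [h3]; exact h2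
          · left; rw [← h2]; exact h3
          · right; rw [h3, h2]
      · right
        cases hy : v.foldl (off δ) (some y0) with
        | none =>
          refine ⟨y0, fun x y h => ?_⟩
          rw [List.foldl_cons, off_some] at h
          cases hx : δ (some x) a with
          | none => rw [hx, off_none] at h; exact absurd h (by simp)
          | some x' =>
            rw [hx, h1 x x' hx, hy] at h
            exact absurd h (by simp)
        | some z =>
          refine ⟨z, fun x y h => ?_⟩
          rw [List.foldl_cons, off_some] at h
          cases hx : δ (some x) a with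
          | none => rw [hx, off_none] at h; exact absurd h (by simp)
          | some x' =>
            rw [hx, h1 x x' hx, hy, Option.some.injEq] at h
            exact h.symm
    · right
      refine ⟨y0, fun x y h => ?_⟩
      rw [List.foldl_cons, off_some] at h
      cases hx : δ (some x) a with
      | none => rw [hx, off_none] at h; exact absurd h (by simp)
      | some x' => rw [hx] at h; exact ih x' y h

theorem iter_none {f : Option Y → Option Y} (hn : f none = none) (n : ℕ) :
    f^[n] (none : Option Y) = none := by
  induction n with
  | zero => rfl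
  | succ n ih =>
    change f^[n] (f none) = none
    rw [hn]; exact ih

theorem iter_fix {f : Option Y → Option Y} {x : Y} (h : f (some x) = some x) (n : ℕ) :
    f^[n] (some x) = some x := by
  induction n with
  | zero => rfl
  | succ n ih =>
    change f^[n] (f (some x)) = some x
    rw [h]; exact ih

theorem iter_mono {f : Option Y → Option Y} (hn : f none = none)
    (hv : ∀ x y, f (some x) = some y → ρ y < ρ x ∨ y = x) (n : ℕ) :
    ∀ x : Y, ρ x ≤ n → f^[n + 2] (some x) = f^[n + 1] (some x) := by
  induction n with
  | zero =>
    intro x hx
    change f^[1] (f (some x)) = f^[0] (f (some x))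
    cases hy : f (some x) with
    | none => rw [iter_none hn, iter_none hn]
    | some y =>
      rcases hv x y hy with h1 | h1
      · omega
      · subst h1
        rw [iter_fix hy, iter_fix hy]
  | succ n ih =>
    intro x hx
    change f^[n + 2] (f (some x)) = f^[n + 1] (f (some x))
    cases hy : f (some x) with
    | none => rw [iter_none hn, iter_none hn]
    | some y =>
      rcases hv x y hy with h1 | h1
      · exact ih y (by omega)
      · subst h1
        rw [iter_fix hy, iter_fix hy]

theorem iter_one {f : Option Y → Option Y} (hn : f none = none) {y0 : Y}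
    (hv : ∀ x y, f (some x) = some y → y = y0) (x : Y) :
    f^[3] (some x) = f^[2] (some x) := by
  change f (f (f (some x))) = f (f (some x))
  cases hz : f (some x) with
  | none => rw [hn, hn]
  | some z =>
    cases hz2 : f (some z) with
    | none => rw [hn]
    | some z2 =>
      have e1 := hv _ _ hz
      have e2 := hv _ _ hz2
      rw [e2, ← e1, hz2, e2, e1]

/-- **Automata which are monotone off one state.** -/
theorem mono_sh [Finite α] [Finite Y] (hM : MonoOff ρ δ) (x y : Option Y) :
    SH 1 {w : List α | w.foldl δ x = y} := by
  refine gof_sh δ (h := 0) (fun x y => ?_) x y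
  refine sh_of_mapLe (off δ) ?_ (some x) (some y)
  obtain ⟨B, hB⟩ : ∃ B, ∀ y : Y, ρ y ≤ B := by
    obtain ⟨B, hB⟩ := (Set.finite_range ρ).bddAbove
    exact ⟨B, fun y => hB ⟨y, rfl⟩⟩
  refine H162.Str.straubing (fun _ => ()) mapLe_unit (tr (off δ)) fun v _ _ => ?_
  have hf : ∀ (n : ℕ) (z : Option Y), (((v.map (tr (off δ))).prod) ^ n).f z =
      (fun x => v.foldl (off δ) x)^[n] z := by
    intro n z
    rw [Tr.pow_f]
    congr 1
    funext z
    exact tr_prod (off δ) v z
  rcases mono_word hM v with h1 | ⟨y0, h1⟩
  · refine ⟨B + 1, Tr.ext' fun z => ?_⟩
    rw [hf, hf]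
    cases z with
    | none => rw [iter_none (off_none δ v), iter_none (off_none δ v)]
    | some z => exact iter_mono (off_none δ v) h1 B z (hB z)
  · refine ⟨2, Tr.ext' fun z => ?_⟩
    rw [hf, hf]
    cases z with
    | none => rw [iter_none (off_none δ v), iter_none (off_none δ v)]
    | some z => exact iter_one (off_none δ v) h1 z

end mono

end Vale.Agent.P329.H550
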