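import Vale.Agent.P329.R3.H96.Short
import Vale.Agent.P329.R2.H162.Str

/-!
P329: removing one state of an arbitrary finite automaton.

`reach_off`: if the automaton `ε` on the states of `Y` agrees with the automaton `δ` on
`Option Y` as long as the state `none` is not visited, and all languages of `ε` have height at
most `h`, then all languages of `δ` have height at most `h + 1`.
-/

set_option linter.all false

namespace Vale.Agent.P329.H550

open Vale.Agent.P329 Vale.Agent.P329.H112 Vale.Agent.P329.H157 Vale.Agent.P329.H647
  Vale.Agent.P329.H96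

section off

variable {α Y : Type} (δ : Option Y → α → Option Y)

/-- the automaton off the root `none`, which is a sink -/
def off (x : Option Y) (a : α) : Option Y := x.bind fun y => δ (some y) a

theorem off_none (w : List α) : w.foldl (off δ) none = none := by
  induction w with
  | nil => rfl
  | cons a w ih => rw [List.foldl_cons]; exact ih

theorem off_some (y : Y) (a : α) : off δ (some y) a = δ (some y) a := rfl

/-- off the root the two automata agree -/
theorem off_gof (w : List α) : ∀ x y : Y, w.foldl (off δ) (some x) = some y →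
    w.foldl δ (some x) = some y := by
  induction w with
  | nil => intro x y h; exact h
  | cons a w ih =>
    intro x y h
    rw [List.foldl_cons] at h ⊢
    rw [off_some] at h
    cases hx : δ (some x) a with
    | none => rw [hx, off_none] at h; exact absurd h (by simp)
    | some x' => rw [hx] at h; exact ih x' y h

/-- words from `x` to the root which end at the first visit -/
def inw (x : Y) : Set (List α) :=
  {u | ∃ u' b z, u = u' ++ [b] ∧ u'.foldl (off δ) (some x) = some z ∧ δ (some z) b = none}

/-- the first return words of the root -/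
def ret : Set (List α) :=
  {u | (∃ a, u = [a] ∧ δ none a = none) ∨
    ∃ a x u', u = a :: u' ∧ δ none a = some x ∧ u' ∈ inw δ x}

/-- words from the root to `y` without further visits of the root -/
def out : Option Y → Set (List α)
  | none => {[]}
  | some y => {u | ∃ a x u', u = a :: u' ∧ δ none a = some x ∧
      u'.foldl (off δ) (some x) = some y}

theorem inw_sh [Finite α] [Finite Y] {h : ℕ}
    (hF : ∀ x y : Y, SH h {w : List α | w.foldl (off δ) (some x) = some y}) (x : Y) :
    SH h (inw δ x) := by
  have h1 : SH h (⋃ b : α, ⋃ z : Y, ⋃ _ : δ (some z) b = none,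
      cat {w : List α | w.foldl (off δ) (some x) = some z} {[b]}) :=
    SH.iUnion fun b => SH.iUnion fun z => SH.iUnion_prop fun _ =>
      (hF x z).cat (SH.single b)
  refine Eq.mp (congrArg (SH h) ?_) h1
  ext w
  simp only [Set.mem_iUnion, exists_prop]
  constructor
  · rintro ⟨b, z, h2, u, hu, v, rfl, rfl⟩
    exact ⟨u, b, z, rfl, hu, h2⟩
  · rintro ⟨u, b, z, rfl, hu, h2⟩
    exact ⟨b, z, h2, u, hu, [b], rfl, rfl⟩

theorem ret_sh [Finite α] [Finite Y] {h : ℕ}
    (hF : ∀ x y : Y, SH h {w : List α | w.foldl (off δ) (some x) = some y}) :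
    SH h (ret δ) := by
  have h1 : SH h ((⋃ a : α, ⋃ _ : δ none a = none, {[a]}) ∪
      ⋃ a : α, ⋃ x : Y, ⋃ _ : δ none a = some x, cat {[a]} (inw δ x)) :=
    (SH.iUnion fun a => SH.iUnion_prop fun _ => SH.single a).union
      (SH.iUnion fun a => SH.iUnion fun x => SH.iUnion_prop fun _ =>
        (SH.single a).cat (inw_sh δ hF x))
  refine Eq.mp (congrArg (SH h) ?_) h1
  ext w
  simp only [Set.mem_union, Set.mem_iUnion, exists_prop]
  constructor
  · rintro (⟨a, h2, rfl⟩ | ⟨a, x, h2, u, rfl, v, hv, rfl⟩)
    · exact Or.inl ⟨a, rfl, h2⟩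
    · exact Or.inr ⟨a, x, v, rfl, h2, hv⟩
  · rintro (⟨a, rfl, h2⟩ | ⟨a, x, v, rfl, h2, hv⟩)
    · exact Or.inl ⟨a, h2, rfl⟩
    · exact Or.inr ⟨a, x, h2, [a], rfl, v, hv, rfl⟩

theorem out_sh [Finite α] [Finite Y] {h : ℕ}
    (hF : ∀ x y : Y, SH h {w : List α | w.foldl (off δ) (some x) = some y}) (y : Option Y) :
    SH h (out δ y) := by
  cases y with
  | none => exact SH.eps
  | some y =>
    have h1 : SH h (⋃ a : α, ⋃ x : Y, ⋃ _ : δ none a = some x,
        cat {[a]} {w : List α | w.foldl (off δ) (some x) = some y}) :=
      SH.iUnion fun a => SH.iUnion fun x => SH.iUnion_prop fun _ =>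
        (SH.single a).cat (hF x y)
    refine Eq.mp (congrArg (SH h) ?_) h1
    ext w
    simp only [Set.mem_iUnion, exists_prop]
    constructor
    · rintro ⟨a, x, h2, u, rfl, v, hv, rfl⟩
      exact ⟨a, x, v, rfl, h2, hv⟩
    · rintro ⟨a, x, v, rfl, h2, hv⟩
      exact ⟨a, x, h2, [a], rfl, v, hv, rfl⟩

/-- the first visit of the root -/
theorem split_root (w : List α) : ∀ x : Y, w.foldl (off δ) (some x) = none →
    ∃ u v, w = u ++ v ∧ u ∈ inw δ x := by
  induction w with
  | nil => intro x h; exact absurd h (by simp)
  | cons a w ih =>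
    intro x h
    rw [List.foldl_cons, off_some] at h
    cases hx : δ (some x) a with
    | none => exact ⟨[a], w, rfl, [], a, x, rfl, rfl, hx⟩
    | some x' =>
      rw [hx] at h
      obtain ⟨u, v, rfl, u', b, z, rfl, h1, h2⟩ := ih x' h
      refine ⟨a :: (u' ++ [b]), v, rfl, a :: u', b, z, rfl, ?_, h2⟩
      rw [List.foldl_cons, off_some, hx, h1]

theorem inw_gof {x : Y} {u : List α} (hu : u ∈ inw δ x) : u.foldl δ (some x) = none := by
  obtain ⟨u', b, z, rfl, h1, h2⟩ := hu
  rw [List.foldl_append, off_gof δ u' x z h1]
  exact h2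

theorem ret_gof {u : List α} (hu : u ∈ ret δ) : u.foldl δ none = none := by
  rcases hu with ⟨a, rfl, h1⟩ | ⟨a, x, u', rfl, h1, h2⟩
  · exact h1
  · rw [List.foldl_cons, h1]
    exact inw_gof δ h2

theorem out_gof (y : Option Y) {u : List α} (hu : u ∈ out δ y) : u.foldl δ none = y := by
  cases y with
  | none => rw [Set.mem_singleton_iff.1 hu]; rfl
  | some y =>
    obtain ⟨a, x, u', rfl, h1, h2⟩ := hu
    rw [List.foldl_cons, h1]
    exact off_gof δ u' x y h2

/-- paths from the root -/
theorem root_eq (y : Option Y) :
    {w : List α | w.foldl δ none = y} = cat (kst (ret δ)) (out δ y) := by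
  ext w
  constructor
  · intro hw
    change w.foldl δ none = y at hw
    obtain ⟨n, hn⟩ : ∃ n, w.length ≤ n := ⟨_, le_rfl⟩
    induction n generalizing w with
    | zero =>
      have : w = [] := List.length_eq_zero_iff.1 (Nat.le_zero.1 hn)
      subst this
      rw [← hw]
      exact ⟨[], ⟨[], by simp, rfl⟩, [], rfl, rfl⟩
    | succ n ih =>
      cases w with
      | nil =>
        rw [← hw]
        exact ⟨[], ⟨[], by simp, rfl⟩, [], rfl, rfl⟩
      | cons a w =>
        rw [List.foldl_cons] at hw
        rw [List.length_cons] at hn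
        cases hx : δ none a with
        | none =>
          rw [hx] at hw
          obtain ⟨u, hu, v, hv, rfl⟩ := ih w hw (by omega)
          exact ⟨[a] ++ u, kst_step (Or.inl ⟨a, rfl, hx⟩) hu, v, hv, rfl⟩
        | some x =>
          rw [hx] at hw
          cases hz : w.foldl (off δ) (some x) with
          | none =>
            obtain ⟨u, v, rfl, hu⟩ := split_root δ w x hz
            rw [List.foldl_append, inw_gof δ hu] at hw
            rw [List.length_append] at hn
            obtain ⟨s, hs, t, ht, rfl⟩ := ih v hw (by omega)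
            refine ⟨(a :: u) ++ s, kst_step (Or.inr ⟨a, x, u, rfl, hx, hu⟩) hs, t, ht, ?_⟩
            simp
          | some z =>
            have h1 := off_gof δ w x z hz
            rw [h1] at hw
            subst hw
            exact ⟨[], ⟨[], by simp, rfl⟩, a :: w, ⟨a, x, w, rfl, hx, hz⟩, rfl⟩
  · rintro ⟨u, ⟨L, hL, rfl⟩, v, hv, rfl⟩
    change (L.flatten ++ v).foldl δ none = y
    have h1 : L.flatten.foldl δ none = none := by
      clear hv
      induction L with
      | nil => rfl
      | cons u L ih =>
        rw [List.flatten_cons, List.foldl_append,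
          ret_gof δ (hL u (List.mem_cons_self ..))]
        exact ih fun u hu => hL u (List.mem_cons_of_mem _ hu)
    rw [List.foldl_append, h1]
    exact out_gof δ y hv

theorem gof_sh [Finite α] [Finite Y] {h : ℕ}
    (hF : ∀ x y : Y, SH h {w : List α | w.foldl (off δ) (some x) = some y}) (x y : Option Y) :
    SH (h + 1) {w : List α | w.foldl δ x = y} := by
  have h0 : ∀ y, SH (h + 1) {w : List α | w.foldl δ none = y} := by
    intro y
    rw [root_eq]
    exact (ret_sh δ hF).kst.cat ((out_sh δ hF y).mono (Nat.le_succ h))
  cases x with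
  | none => exact h0 y
  | some x =>
    have h1 : SH (h + 1) ((⋃ z : Y, ⋃ _ : some z = y,
        {w : List α | w.foldl (off δ) (some x) = some z}) ∪
        cat (inw δ x) {w : List α | w.foldl δ none = y}) :=
      (SH.iUnion fun z => SH.iUnion_prop fun _ =>
        (hF x z).mono (Nat.le_succ h)).union
        (((inw_sh δ hF x).mono (Nat.le_succ h)).cat (h0 y))
    refine Eq.mp (congrArg (SH (h + 1)) ?_) h1
    ext w
    simp only [Set.mem_union, Set.mem_iUnion, exists_prop]
    constructor
    · rintro (⟨z, rfl, hw⟩ | ⟨u, hu, v, hv, rfl⟩)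
      · exact off_gof δ w x z hw
      · change (u ++ v).foldl δ (some x) = y
        rw [List.foldl_append, inw_gof δ hu]
        exact hv
    · intro hw
      change w.foldl δ (some x) = y at hw
      cases hz : w.foldl (off δ) (some x) with
      | none =>
        obtain ⟨u, v, rfl, hu⟩ := split_root δ w x hz
        rw [List.foldl_append, inw_gof δ hu] at hw
        exact Or.inr ⟨u, hu, v, hw, rfl⟩
      | some z =>
        have h2 := off_gof δ w x z hz
        rw [h2] at hw
        exact Or.inl ⟨z, hw, hz⟩

end off

/-! ### Transformations -/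

section tr

variable {α X : Type} (δ : X → α → X)

/-- the transformation of a letter -/
def tr (a : α) : Tr X := ⟨fun x => δ x a⟩

theorem tr_prod (w : List α) (x : X) : ((w.map (tr δ)).prod).f x = w.foldl δ x := by
  induction w generalizing x with
  | nil => rfl
  | cons a w ih =>
    rw [List.map_cons, List.prod_cons, Tr.mul_f, ih, List.foldl_cons]
    rfl

/-- from the languages of the automaton to the languages of its transformations -/
theorem mapLe_tr [Finite α] [Finite X] {h : ℕ}
    (hF : ∀ x y : X, SH h {w : List α | w.foldl δ x = y}) : MapLe h (tr δ) := by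
  intro S
  have h1 : SH h (⋃ g : Tr X, ⋃ _ : g ∈ S,
      ⋂ x : X, {w : List α | w.foldl δ x = g.f x}) :=
    SH.iUnion fun g => SH.iUnion_prop fun _ => SH.iInter fun x => hF x _
  refine Eq.mp (congrArg (SH h) ?_) h1
  ext w
  simp only [Set.mem_iUnion, exists_prop, Set.mem_iInter]
  change (∃ g ∈ S, ∀ x, w.foldl δ x = g.f x) ↔ (w.map (tr δ)).prod ∈ S
  constructor
  · rintro ⟨g, hg, h2⟩
    have h3 : (w.map (tr δ)).prod = g := Tr.ext' fun x => by rw [tr_prod, h2]
    rw [h3]; exact hg
  · intro hg
    exact ⟨_, hg, fun x => (tr_prod δ w x).symm⟩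

theorem sh_of_mapLe {h : ℕ} (hF : MapLe h (tr δ)) (x y : X) :
    SH h {w : List α | w.foldl δ x = y} := by
  refine Eq.mp (congrArg (SH h) ?_) (hF {m | m.f x = y})
  ext w
  change ((w.map (tr δ)).prod).f x = y ↔ w.foldl δ x = y
  rw [tr_prod]

end tr

/-- Off the root the languages are not more difficult than those of an automaton which agrees
with the given one off the root. -/
theorem off_sh {α Y : Type} [Finite α] [Finite Y] {h : ℕ} (δ : Option Y → α → Option Y)
    (ε : Y → α → Y) (hε : ∀ x a y, δ (some x) a = some y → ε x a = y)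
    (hF : ∀ x y : Y, SH h {w : List α | w.foldl ε x = y}) (x y : Y) :
    SH h {w : List α | w.foldl (off δ) (some x) = some y} := by
  have hfold : ∀ (w : List α) (x y : Y), w.foldl (off δ) (some x) = some y →
      w.foldl ε x = y := by
    intro w
    induction w with
    | nil =>
      intro x y h
      rw [List.foldl_nil, Option.some.injEq] at h
      simpa using h
    | cons a w ih =>
      intro x y h
      rw [List.foldl_cons, off_some] at h
      cases hx : δ (some x) a with
      | none => rw [hx, off_none] at h; exact absurd h (by simp)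
      | some x' =>
        rw [hx] at h
        rw [List.foldl_cons, hε x a x' hx]
        exact ih x' y h
  have h1 : MapLe h (tr (off δ)) := by
    refine H162.Str.straubing (tr ε) (mapLe_tr ε hF) (tr (off δ)) (fun v _ hv => ⟨2, ?_⟩)
    have key : ∀ z : Option Y, v.foldl (off δ) (v.foldl (off δ) (v.foldl (off δ) z)) =
        v.foldl (off δ) (v.foldl (off δ) z) := by
      intro z
      cases z with
      | none => rw [off_none, off_none, off_none]
      | some z =>
        cases hz : v.foldl (off δ) (some z) with
        | none => rw [off_none, off_none]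
        | some z' =>
          cases hz2 : v.foldl (off δ) (some z') with
          | none => rw [off_none]
          | some z'' =>
            have e1 := hfold v z z' hz
            have e2 := hfold v z' z'' hz2
            have e3 : v.foldl ε (v.foldl ε z) = v.foldl ε z := by
              have := congrArg (fun m : Tr Y => m.f z) hv
              simpa only [Tr.mul_f, tr_prod] using this
            rw [e1, e2] at e3
            subst e3
            exact hz2
    refine Tr.ext' fun z => ?_
    have e3 : ((v.map (tr (off δ))).prod ^ (2 + 1)).f z =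
        v.foldl (off δ) (v.foldl (off δ) (v.foldl (off δ) z)) := by
      rw [pow_succ, pow_succ, pow_one, Tr.mul_f, Tr.mul_f, tr_prod, tr_prod, tr_prod]
    have e2 : ((v.map (tr (off δ))).prod ^ 2).f z =
        v.foldl (off δ) (v.foldl (off δ) z) := by
      rw [pow_succ, pow_one, Tr.mul_f, tr_prod, tr_prod]
    rw [e3, e2]
    exact key z
  refine Eq.mp (congrArg (SH h) ?_) (h1 {m | m.f (some x) = some y})
  ext w
  change ((w.map (tr (off δ))).prod).f (some x) = some y ↔ w.foldl (off δ) (some x) = some y
  rw [tr_prod]

/-- **Removing one state.** -/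
theorem reach_off {α Y : Type} [Finite α] [Finite Y] {h : ℕ} (δ : Option Y → α → Option Y)
    (ε : Y → α → Y) (hε : ∀ x a y, δ (some x) a = some y → ε x a = y)
    (hF : ∀ x y : Y, SH h {w : List α | w.foldl ε x = y}) (x y : Option Y) :
    SH (h + 1) {w : List α | w.foldl δ x = y} :=
  gof_sh δ (off_sh δ ε hε hF) x y

end Vale.Agent.P329.H550
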