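import Vale.Agent.P329.H550.FourU

/-!
P329: automata whose strongly connected components have at most three states, or have four states
and every letter which maps the component into itself has fibres of equal size.
-/

set_option linter.all false

namespace Vale.Agent.P329.H550

open Vale.Agent.P329 Vale.Agent.P329.S4 Vale.Agent.P329.H112 Vale.Agent.P329.H157
  Vale.Agent.P329.H647 Vale.Agent.P329.H96

/-- the sum of the four values is zero -/
def Xz (g : Fin 4 → Fin 4) : Prop := c4 (g 0) + c4 (g 1) + c4 (g 2) + c4 (g 3) = 0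

theorem xz_aff : ∀ a b c d : Fin 4, c4 a + c4 b + c4 c + c4 d = 0 →
    c4 b = ap (c4 b + c4 a, c4 c + c4 a) (c4 1) + c4 a ∧
    c4 c = ap (c4 b + c4 a, c4 c + c4 a) (c4 2) + c4 a ∧
    c4 d = ap (c4 b + c4 a, c4 c + c4 a) (c4 3) + c4 a := by
  set_option maxRecDepth 100000 in decide

theorem xz_fs : ∀ a b c d : Fin 4,
    (∀ q : Fin 4, fs ![a, b, c, d] q = fs ![a, b, c, d] 0) →
    c4 a + c4 b + c4 c + c4 d = 0 := by
  set_option maxRecDepth 100000 in decide

theorem c4_surj : ∀ s : V, ∃ d : Fin 4, c4 d = s := by decide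

/-- **Four states, affine letters.** -/
theorem xz_sh {α : Type} [Finite α] (δ : Fin 4 → α → Fin 4)
    (hδ : ∀ a, Xz fun x => δ x a) (p q : Fin 4) :
    SH 1 {w : List α | w.foldl δ p = q} := by
  let μ : α → V × V := fun a => (c4 (δ 1 a) + c4 (δ 0 a), c4 (δ 2 a) + c4 (δ 0 a))
  let κ : α → V := fun a => c4 (δ 0 a)
  have h1 : ∀ (x : Fin 4) (a : α), st μ κ (c4 x) a = c4 (δ x a) := by
    intro x a
    have h2 := xz_aff (δ 0 a) (δ 1 a) (δ 2 a) (δ 3 a) (hδ a)
    change ap (c4 (δ 1 a) + c4 (δ 0 a), c4 (δ 2 a) + c4 (δ 0 a)) (c4 x) + c4 (δ 0 a) = c4 (δ x a)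
    match x with
    | 0 =>
      rw [show c4 0 = 0 from rfl, ap_zero, zero_add]
    | 1 => exact h2.1.symm
    | 2 => exact h2.2.1.symm
    | 3 => exact h2.2.2.symm
  have h2 : ∀ (w : List α) (x : Fin 4), w.foldl (st μ κ) (c4 x) = c4 (w.foldl δ x) := by
    intro w
    induction w with
    | nil => intro x; rfl
    | cons a w ih => intro x; rw [List.foldl_cons, List.foldl_cons, h1, ih]
  refine Eq.mp (congrArg (SH 1) ?_) (aff_known μ κ (c4 p) (c4 q))
  ext w
  simp only [Set.mem_setOf_eq]
  rw [h2]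
  exact ⟨fun h => c4_inj _ _ h, fun h => by rw [h]⟩

/-- every partial map which is not total extends to an affine map -/
theorem xz_ext (f : Fin 4 → Option (Fin 4)) (x0 : Fin 4) (h0 : f x0 = none) :
    ∃ g : Fin 4 → Fin 4, Xz g ∧ ∀ x y, f x = some y → g x = y := by
  let h : Fin 4 → Fin 4 := fun x => (f x).getD 0
  obtain ⟨d, hd⟩ := c4_surj (∑ x : Fin 4, if x = x0 then 0 else c4 (h x))
  refine ⟨fun x => if x = x0 then d else h x, ?_, ?_⟩
  · have h1 : ∑ x : Fin 4, c4 (if x = x0 then d else h x) = 0 := by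
      have h2 : ∀ x : Fin 4, c4 (if x = x0 then d else h x) =
          (if x = x0 then c4 d else 0) + (if x = x0 then 0 else c4 (h x)) := by
        intro x
        by_cases hx : x = x0
        · rw [if_pos hx, if_pos hx, if_pos hx, add_zero]
        · rw [if_neg hx, if_neg hx, if_neg hx, zero_add]
      rw [Finset.sum_congr rfl fun x _ => h2 x, Finset.sum_add_distrib,
        Finset.sum_ite_eq' Finset.univ x0 (fun _ => c4 d), if_pos (Finset.mem_univ _), ← hd, vv]
    rw [Fin.sum_univ_four] at h1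
    exact h1
  · intro x y hxy
    have hx : x ≠ x0 := by
      intro hx
      rw [hx, h0] at hxy
      cases hxy
    change (if x = x0 then d else (f x).getD 0) = y
    rw [if_neg hx, hxy]
    rfl

section

variable {α X : Type} (δ : X → α → X)

/-- A component with four states on which every letter which maps it into itself has fibres of
equal size. -/
def Four (C : Set X) : Prop :=
  C.ncard = 4 ∧ ∀ a, (∀ x ∈ C, δ x a ∈ C) → ∀ x ∈ C, ∀ y ∈ C,
    {s | s ∈ C ∧ δ s a = δ x a}.ncard = {s | s ∈ C ∧ δ s a = δ y a}.ncard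

theorem four_comp [Finite α] [Finite X] (p z : X) (hz : z ∈ Cmp δ p)
    (hn : Four δ (Cmp δ p)) : SH 1 {w : List α | w.foldl δ p = z} := by
  classical
  have hpp : p ∈ Cmp δ p := ⟨Rch.refl δ p, Rch.refl δ p⟩
  have hcard : Nat.card (Cmp δ p) = 4 := hn.1
  let e : Cmp δ p ≃ Fin 4 := Finite.equivFinOfCardEq hcard
  have hg : ∀ a : α, ∃ g : Fin 4 → Fin 4, Xz g ∧
      ∀ x y : Cmp δ p, δ x a = y → g (e x) = e y := by
    intro a
    by_cases ha : ∀ x ∈ Cmp δ p, δ x a ∈ Cmp δ p
    · let g : Fin 4 → Fin 4 := fun x => e ⟨δ (e.symm x) a, ha _ (e.symm x).2⟩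
      have hgv : ∀ x y : Cmp δ p, δ x a = y → g (e x) = e y := by
        intro x y hxy
        change e ⟨δ (e.symm (e x)) a, _⟩ = e y
        congr 1
        apply Subtype.ext
        change δ (e.symm (e x)) a = y
        rw [e.symm_apply_apply]; exact hxy
      refine ⟨g, ?_, hgv⟩
      have e1 : ![g 0, g 1, g 2, g 3] = g := by
        funext x
        fin_cases x <;> rfl
      refine xz_fs (g 0) (g 1) (g 2) (g 3) ?_
      rw [e1]
      have h1 : ∀ q : Fin 4, {s | g s = g q}.ncard =
          {s | s ∈ Cmp δ p ∧ δ s a = δ (e.symm q) a}.ncard := by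
        intro q
        have h2 : {s | s ∈ Cmp δ p ∧ δ s a = δ (e.symm q) a} =
            (fun s : Fin 4 => ((e.symm s : Cmp δ p) : X)) '' {s | g s = g q} := by
          ext s
          simp only [Set.mem_setOf_eq, Set.mem_image]
          constructor
          · rintro ⟨hs, h3⟩
            refine ⟨e ⟨s, hs⟩, ?_, by rw [e.symm_apply_apply]⟩
            change e ⟨δ (e.symm (e ⟨s, hs⟩)) a, _⟩ = e ⟨δ (e.symm q) a, _⟩
            congr 1
            apply Subtype.ext
            change δ (e.symm (e ⟨s, hs⟩)) a = δ (e.symm q) a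
            rw [e.symm_apply_apply]; exact h3
          · rintro ⟨x, hx, rfl⟩
            refine ⟨(e.symm x).2, ?_⟩
            have h3 := e.injective hx
            exact congrArg Subtype.val h3
        rw [h2, Set.ncard_image_of_injective]
        intro x y hxy
        exact e.symm.injective (Subtype.ext hxy)
      intro q
      rw [← fs_eq, ← fs_eq, h1, h1]
      exact hn.2 a ha _ (e.symm q).2 _ (e.symm 0).2
    · push_neg at ha
      obtain ⟨x0, hx0, hx1⟩ := ha
      let f : Fin 4 → Option (Fin 4) := fun x =>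
        if h : δ (e.symm x) a ∈ Cmp δ p then some (e ⟨δ (e.symm x) a, h⟩) else none
      have hf0 : f (e ⟨x0, hx0⟩) = none := by
        have h1 : ¬ δ (e.symm (e ⟨x0, hx0⟩)) a ∈ Cmp δ p := by
          rw [e.symm_apply_apply]; exact hx1
        exact dif_neg h1
      obtain ⟨g, hg1, hg2⟩ := xz_ext f _ hf0
      refine ⟨g, hg1, fun x y hxy => hg2 _ _ ?_⟩
      have h1 : δ (e.symm (e x)) a ∈ Cmp δ p := by
        rw [e.symm_apply_apply, hxy]; exact y.2
      have h2 : f (e x) = some (e ⟨δ (e.symm (e x)) a, h1⟩) := dif_pos h1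
      rw [h2]
      congr 2
      apply Subtype.ext
      change δ (e.symm (e x)) a = y
      rw [e.symm_apply_apply]; exact hxy
  choose g hg1 hg2 using hg
  let γ : Fin 4 → α → Fin 4 := fun x a => g a x
  have hγ : ∀ x y : Fin 4, SH 1 {w : List α | w.foldl γ x = y} :=
    fun x y => xz_sh γ (fun a => hg1 a) x y
  let ε : Cmp δ p → α → Cmp δ p := fun x a => e.symm (γ (e x) a)
  have hε : ∀ x y : Cmp δ p, SH 1 {w : List α | w.foldl ε x = y} := by
    intro x y
    have h1 : ∀ (w : List α) (x : Cmp δ p), e (w.foldl ε x) = w.foldl γ (e x) := by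
      intro w
      induction w with
      | nil => intro x; rfl
      | cons a w ih =>
        intro x
        rw [List.foldl_cons, List.foldl_cons, ih]
        change w.foldl γ (e (e.symm (γ (e x) a))) = _
        rw [e.apply_symm_apply]
    refine Eq.mp (congrArg (SH 1) ?_) (hγ (e x) (e y))
    ext w
    simp only [Set.mem_setOf_eq]
    rw [← h1, e.apply_eq_iff_eq]
  have h1 := off_sh (h := 1) (dC δ (Cmp δ p)) ε (by
      intro x a y h
      change (if h : δ x a ∈ Cmp δ p then some ⟨δ x a, h⟩ else none) = some y at h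
      change e.symm (g a (e x)) = y
      by_cases h2 : δ x a ∈ Cmp δ p
      · rw [dif_pos h2] at h
        have h3 : δ x a = y := congrArg Subtype.val (Option.some.inj h)
        rw [hg2 a x y h3, e.symm_apply_apply]
      · rw [dif_neg h2] at h
        cases h) hε ⟨p, hpp⟩ ⟨z, hz⟩
  have key : ∀ (w : List α) (y : Cmp δ p), w.foldl (off (dC δ (Cmp δ p))) (some y) =
      some ⟨z, hz⟩ ↔ w.foldl δ y = z := by
    intro w
    induction w with
    | nil =>
      intro y
      rw [List.foldl_nil, List.foldl_nil, Option.some.injEq]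
      exact ⟨fun h => by rw [h], fun h => Subtype.ext h⟩
    | cons a w ih =>
      intro y
      rw [List.foldl_cons, List.foldl_cons, off_some]
      change w.foldl (off (dC δ (Cmp δ p)))
        (if h : δ y a ∈ Cmp δ p then some ⟨δ y a, h⟩ else none) = some ⟨z, hz⟩ ↔ _
      by_cases h : δ y a ∈ Cmp δ p
      · rw [dif_pos h]
        exact ih ⟨δ y a, h⟩
      · rw [dif_neg h, off_none]
        constructor
        · intro h2; exact absurd h2 (by simp)
        · intro h2
          exfalso
          refine h ⟨y.2.1.trans (Rch.step _ _), ?_⟩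
          exact Rch.trans (δ := δ) ⟨w, h2⟩ hz.2
  refine Eq.mp (congrArg (SH 1) ?_) h1
  ext w
  exact key w ⟨p, hpp⟩

end

theorem dfa_scc_four {α σ : Type} [Finite α] [Finite σ] (A : DFA α σ)
    (hX : ∀ q : σ, {r : σ | (∃ u, A.evalFrom q u = r) ∧ ∃ v, A.evalFrom r v = q}.ncard ≤ 3 ∨
      Four A.step {r : σ | (∃ u, A.evalFrom q u = r) ∧ ∃ v, A.evalFrom r v = q}) :
    HeightLe 1 {w : List α | w ∈ A.accepts} := by
  have h0 : ∀ p q : σ, SH 1 {w : List α | w.foldl A.step p = q} := by
    intro p q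
    refine scc_sh A.step (fun p z hz => ?_) _ p q le_rfl
    rcases hX p with h | h
    · exact comp_sh A.step 0 p z hz h
    · exact four_comp A.step p z hz h
  have h1 : SH 1 (⋃ q : σ, ⋃ _ : q ∈ A.accept,
      {w : List α | w.foldl A.step A.start = q}) :=
    SH.iUnion fun q => SH.iUnion_prop fun _ => h0 _ _
  refine Eq.mp (congrArg (SH 1) ?_) h1
  ext w
  simp only [Set.mem_iUnion, exists_prop, Set.mem_setOf_eq]
  rw [DFA.mem_accepts]
  constructor
  · rintro ⟨q, hq, rfl⟩; exact hq
  · intro h; exact ⟨_, h, rfl⟩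

end Vale.Agent.P329.H550
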