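import Vale.Agent.P329.H550.Cl

/-!
P329: affine maps of `F_2^2`, the table of the six systems.
-/

set_option linter.all false

namespace Vale.Agent.P329.H550

open Vale.Agent.P329 Vale.Agent.P329.S4

/-- code of a vector -/
def cd (v : V) : ℕ := v.1.val + 2 * v.2.val

/-- the vector of a code -/
def dc : ℕ → V
  | 0 => 0
  | 1 => (1, 0)
  | 2 => (0, 1)
  | _ => (1, 1)

/-- the linear map with given images of the basis vectors -/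
def ap (p : V × V) (v : V) : V := (v.1 * p.1.1 + v.2 * p.2.1, v.1 * p.1.2 + v.2 * p.2.2)

/-- the identity -/
def idm : V × V := ((1, 0), (0, 1))

/-- the ranks of the vectors in the six systems -/
def rkt : List (List ℕ) :=
  [[3, 0, 1, 2], [3, 0, 2, 1], [3, 1, 0, 2], [3, 2, 0, 1], [3, 1, 2, 0], [3, 2, 1, 0]]

def rk6 (j : Fin 6) (v : V) : ℕ := (rkt.getD j.val []).getD (cd v) 0

/-- the translations: row = linear part and total translation, column = system -/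
def tab6 : List (List ℕ) :=
  [[0, 0, 0, 0, 0, 0], [0, 0, 0, 0, 0, 0], [0, 0, 0, 0, 0, 0], [0, 0, 0, 0, 0, 0],
   [0, 0, 0, 0, 0, 0], [0, 0, 0, 0, 0, 0], [3, 3, 3, 3, 3, 3], [3, 2, 3, 1, 2, 1],
   [0, 0, 0, 0, 0, 0], [0, 0, 0, 0, 0, 0], [0, 0, 0, 0, 0, 0], [2, 2, 2, 2, 2, 2],
   [0, 0, 0, 0, 0, 0], [1, 1, 1, 1, 1, 1], [2, 2, 3, 3, 1, 1], [0, 0, 0, 0, 0, 0],
   [0, 0, 0, 0, 0, 1], [0, 0, 0, 0, 0, 1], [0, 0, 0, 0, 1, 0], [0, 0, 2, 0, 0, 3],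
   [0, 0, 0, 0, 0, 1], [0, 0, 0, 0, 0, 1], [3, 2, 3, 3, 3, 3], [3, 2, 1, 1, 2, 2],
   [0, 0, 0, 0, 0, 1], [0, 0, 0, 0, 0, 0], [0, 0, 0, 0, 3, 2], [3, 2, 2, 2, 2, 2],
   [0, 0, 0, 1, 0, 0], [1, 1, 3, 1, 2, 1], [2, 2, 3, 1, 2, 1], [0, 0, 1, 0, 0, 0],
   [0, 0, 0, 0, 0, 2], [0, 0, 0, 0, 0, 2], [0, 0, 0, 0, 0, 2], [0, 0, 2, 0, 0, 0],
   [0, 0, 0, 0, 0, 2], [0, 0, 0, 0, 1, 3], [3, 3, 3, 1, 3, 3], [3, 2, 1, 1, 2, 1],
   [0, 0, 0, 0, 0, 2], [0, 0, 0, 0, 0, 0], [0, 0, 0, 0, 0, 2], [3, 2, 2, 2, 2, 1],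
   [0, 0, 0, 1, 0, 3], [1, 1, 3, 1, 1, 1], [2, 2, 3, 1, 1, 1], [0, 0, 1, 0, 0, 3],
   [0, 0, 0, 0, 0, 3], [0, 0, 0, 0, 1, 2], [0, 0, 0, 0, 1, 2], [0, 0, 0, 0, 0, 3],
   [0, 0, 0, 0, 1, 2], [0, 0, 0, 0, 0, 3], [3, 2, 3, 1, 3, 3], [3, 2, 3, 1, 2, 2],
   [0, 0, 0, 0, 1, 2], [0, 0, 0, 0, 0, 0], [0, 0, 0, 0, 3, 0], [2, 2, 2, 2, 2, 1],
   [0, 0, 0, 0, 0, 3], [1, 1, 1, 1, 2, 1], [2, 2, 3, 3, 2, 1], [0, 0, 0, 0, 0, 3]]

def tb (p : V × V) (k : V) (j : Fin 6) : V :=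
  dc ((tab6.getD (cd p.1 + 4 * cd p.2 + 16 * cd k) []).getD j.val 0)

/-- the affine map is good for the system `j` -/
def ClT (j : Fin 6) (p : V × V) (t : V) : Prop :=
  (∀ x : V, ap p x + t = 0 ∨ ap p x + t = x ∨ rk6 j (ap p x + t) < rk6 j x) ∨
    ∃ y0 : V, ∀ x : V, ap p x + t = 0 ∨ ap p x + t = y0

instance (j : Fin 6) (p : V × V) (t : V) : Decidable (ClT j p t) := by
  unfold ClT; infer_instance

set_option maxRecDepth 100000 in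
theorem tb_cl : ∀ (k : V) (a b : V) (j : Fin 6), ClT j (a, b) (tb (a, b) k j) := by decide

set_option maxRecDepth 100000 in
theorem tb_sum : ∀ (k : V) (a b : V), (a, b) ≠ idm →
    tb (a, b) k 0 + tb (a, b) k 1 + tb (a, b) k 2 + tb (a, b) k 3 + tb (a, b) k 4 +
      tb (a, b) k 5 = k := by decide

set_option maxRecDepth 100000 in
theorem tb_id : ∀ (k : V) (j : Fin 6), tb idm k j = 0 := by decide

end Vale.Agent.P329.H550
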