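import Vale.Agent.P329.H550.Mono

/-!
P329: automata with three states.  The four vectors of `F_2^2` are the elements of
`Option (Fin 3)` (`none` = zero, `some m` = the nonzero vector `e_m`, which is the difference of
the points `m + 1` and `m + 2`).
-/

set_option linter.all false

namespace Vale.Agent.P329.H550

open Vale.Agent.P329 Vale.Agent.P329.H112 Vale.Agent.P329.H157 Vale.Agent.P329.H647
  Vale.Agent.P329.H96

/-- the difference of two points -/
def dif (p q : Fin 3) : Option (Fin 3) := if p = q then none else some (-(p + q))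

/-- the sum of two vectors -/
def vadd : Option (Fin 3) → Option (Fin 3) → Option (Fin 3)
  | none, y => y
  | some x, none => some x
  | some x, some y => dif x y

/-- the linear part of a map of the points -/
def lam (g : Fin 3 → Fin 3) : Option (Fin 3) → Option (Fin 3)
  | none => none
  | some m => dif (g (m + 1)) (g (m + 2))

/-- the sum of three vectors -/
def add3 (x y z : Option (Fin 3)) : Option (Fin 3) := vadd (vadd x y) z

/-- the three orders of the nonzero vectors -/
def rk : Fin 3 → Fin 3 → ℕ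
  | 0 => ![1, 0, 2]
  | 1 => ![1, 2, 0]
  | 2 => ![2, 1, 0]

/-- the affine map `x ↦ lam g x + t` is monotone or has at most one value off zero -/
def GoodT (j : Fin 3) (g : Fin 3 → Fin 3) (t : Option (Fin 3)) : Prop :=
  (∀ x y : Fin 3, vadd (lam g (some x)) t = some y → rk j y < rk j x ∨ y = x) ∨
    ∃ y0 : Fin 3, ∀ x y : Fin 3, vadd (lam g (some x)) t = some y → y = y0

instance (j : Fin 3) (g : Fin 3 → Fin 3) (t : Option (Fin 3)) : Decidable (GoodT j g t) := by
  unfold GoodT; infer_instance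

theorem exists_t : ∀ a b c : Fin 3,
    ((a ≠ b ∧ b ≠ c ∧ a ≠ c) ∨ (a = b ∧ b = c) ∨ (a = 0 ∨ b = 0 ∨ c = 0)) →
    ∃ t1 t2 t3 : Option (Fin 3), add3 t1 t2 t3 = dif a 0 ∧ GoodT 0 ![a, b, c] t1 ∧
      GoodT 1 ![a, b, c] t2 ∧ GoodT 2 ![a, b, c] t3 := by
  decide

theorem vadd_lam : ∀ (a b c : Fin 3) (x y : Option (Fin 3)),
    lam ![a, b, c] (vadd x y) = vadd (lam ![a, b, c] x) (lam ![a, b, c] y) := by
  decide

theorem lam_pt : ∀ (a b c p : Fin 3),
    vadd (lam ![a, b, c] (dif p 0)) (dif a 0) = dif (![a, b, c] p) 0 := by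
  decide

theorem add3_self : ∀ x : Option (Fin 3), add3 x x x = x := by decide

theorem dif_inj : ∀ p q : Fin 3, dif p 0 = dif q 0 → p = q := by decide

theorem vadd_assoc : ∀ x y z : Option (Fin 3), vadd (vadd x y) z = vadd x (vadd y z) := by decide

theorem vadd_comm : ∀ x y : Option (Fin 3), vadd x y = vadd y x := by decide

/-- the map of the points of a letter -/
def col {α : Type} (δ : Fin 3 → α → Fin 3) (a : α) : Fin 3 → Fin 3 := ![δ 0 a, δ 1 a, δ 2 a]

theorem col_apply {α : Type} (δ : Fin 3 → α → Fin 3) (a : α) (p : Fin 3) :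
    col δ a p = δ p a := by
  unfold col
  fin_cases p <;> rfl

instance : Std.Associative vadd := ⟨vadd_assoc⟩

instance : Std.Commutative vadd := ⟨vadd_comm⟩

theorem add_perm (x y z x' y' z' : Option (Fin 3)) :
    add3 (vadd x x') (vadd y y') (vadd z z') = vadd (add3 x y z) (add3 x' y' z') := by
  unfold add3
  ac_rfl

/-- Three automata whose sum is the given one. -/
theorem three_sh {α : Type} [Finite α] (δ : Fin 3 → α → Fin 3)
    (hδ : ∀ a, (δ 0 a ≠ δ 1 a ∧ δ 1 a ≠ δ 2 a ∧ δ 0 a ≠ δ 2 a) ∨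
      (δ 0 a = δ 1 a ∧ δ 1 a = δ 2 a) ∨ (δ 0 a = 0 ∨ δ 1 a = 0 ∨ δ 2 a = 0))
    (p q : Fin 3) : SH 1 {w : List α | w.foldl δ p = q} := by
  choose t1 t2 t3 ht h1 h2 h3 using fun a => exists_t _ _ _ (hδ a)
  let T1 : Option (Fin 3) → α → Option (Fin 3) := fun x a => vadd (lam (col δ a) x) (t1 a)
  let T2 : Option (Fin 3) → α → Option (Fin 3) := fun x a => vadd (lam (col δ a) x) (t2 a)
  let T3 : Option (Fin 3) → α → Option (Fin 3) := fun x a => vadd (lam (col δ a) x) (t3 a)
  have s1 : ∀ x y, SH 1 {w : List α | w.foldl T1 x = y} :=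
    fun x y => mono_sh (ρ := rk 0) (δ := T1) (fun a => h1 a) x y
  have s2 : ∀ x y, SH 1 {w : List α | w.foldl T2 x = y} :=
    fun x y => mono_sh (ρ := rk 1) (δ := T2) (fun a => h2 a) x y
  have s3 : ∀ x y, SH 1 {w : List α | w.foldl T3 x = y} :=
    fun x y => mono_sh (ρ := rk 2) (δ := T3) (fun a => h3 a) x y
  have key : ∀ (w : List α) (x y z : Option (Fin 3)) (p : Fin 3), add3 x y z = dif p 0 →
      add3 (w.foldl T1 x) (w.foldl T2 y) (w.foldl T3 z) = dif (w.foldl δ p) 0 := by
    intro w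
    induction w with
    | nil => intro x y z p h; exact h
    | cons a w ih =>
      intro x y z p h
      rw [List.foldl_cons, List.foldl_cons, List.foldl_cons, List.foldl_cons]
      refine ih _ _ _ _ ?_
      change add3 (vadd (lam (col δ a) x) (t1 a)) (vadd (lam (col δ a) y) (t2 a))
        (vadd (lam (col δ a) z) (t3 a)) = dif (δ p a) 0
      rw [add_perm, ht a]
      have e1 : add3 (lam (col δ a) x) (lam (col δ a) y) (lam (col δ a) z) =
          lam (col δ a) (add3 x y z) := by
        unfold add3 col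
        rw [vadd_lam, vadd_lam]
      rw [e1, h]
      have e2 := lam_pt (δ 0 a) (δ 1 a) (δ 2 a) p
      rw [← col_apply δ a p]
      exact e2
  have hU : SH 1 (⋃ z1 : Option (Fin 3), ⋃ z2 : Option (Fin 3), ⋃ z3 : Option (Fin 3),
      ⋃ _ : add3 z1 z2 z3 = dif q 0, {w : List α | w.foldl T1 (dif p 0) = z1} ∩
        ({w : List α | w.foldl T2 (dif p 0) = z2} ∩ {w : List α | w.foldl T3 (dif p 0) = z3})) :=
    SH.iUnion fun z1 => SH.iUnion fun z2 => SH.iUnion fun z3 => SH.iUnion_prop fun _ =>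
      (s1 _ _).inter ((s2 _ _).inter (s3 _ _))
  refine Eq.mp (congrArg (SH 1) ?_) hU
  ext w
  simp only [Set.mem_iUnion, exists_prop, Set.mem_inter_iff, Set.mem_setOf_eq]
  have hk := key w (dif p 0) (dif p 0) (dif p 0) p (add3_self _)
  constructor
  · rintro ⟨z1, z2, z3, h, e1, e2, e3⟩
    rw [e1, e2, e3, h] at hk
    exact (dif_inj _ _ hk).symm
  · intro h
    rw [h] at hk
    exact ⟨_, _, _, hk, rfl, rfl, rfl⟩

end Vale.Agent.P329.H550
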